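import Vale.Agent.P180.H6.HermG

/-!
P180 (helper6): a primitive idempotent of a group algebra meets exactly one irreducible character,
with value 1.
-/

set_option linter.all false

namespace Vale.Agent.P180.H6

open Finset Vale.Agent.P180 Vale.Agent.P180.R2.H799 Vale.Agent.P180.R2.H799.BN
open Vale.Agent.P180.H393 (IsIr IsCF ev)
open Vale.Agent.P180.H337

universe u v

variable {K : Type u} [Field K] [IsAlgClosed K] [CharZero K] {H : Type} [Group H] [Fintype H]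

/-- a primitive idempotent meets exactly one irreducible character, with value one -/
theorem exists_unique_ev {v : MonoidAlgebra K H} (hv : v * v = v) (h0 : v ≠ 0)
    (hp : ∀ z, ∃ c : K, v * z * v = c • v) :
    ∃ χ : IrK K H, ev χ.1 v = 1 ∧ ∀ ψ : IrK K H, ψ ≠ χ → ev ψ.1 v = 0 := by
  classical
  obtain ⟨m, hm, hs⟩ := exists_ev_nat hv
  have h1 : Module.finrank K (NN (⊤ : Subalgebra K (MonoidAlgebra K H)) v v) = 1 := by
    rw [finrank_eq_one_iff']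
    refine ⟨⟨v, Algebra.mem_top, hv, hv⟩, fun h => h0 (congrArg Subtype.val h), ?_⟩
    rintro ⟨w, hw1, hw2, hw3⟩
    obtain ⟨c, hc⟩ := hp w
    refine ⟨c, Subtype.ext ?_⟩
    change c • v = w
    rw [← hc, hw2, hw3]
  rw [h1] at hs
  have h2 : ∃ χ, m χ ≠ 0 := by
    by_contra h
    push Not at h
    rw [Finset.sum_eq_zero fun χ _ => by rw [h χ]; rfl] at hs
    exact one_ne_zero hs
  obtain ⟨χ, hχ⟩ := h2
  have h3 : m χ ^ 2 + ∑ ψ ∈ Finset.univ.erase χ, m ψ ^ 2 = 1 := by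
    rw [hs]
    exact Finset.add_sum_erase _ (fun ψ => m ψ ^ 2) (Finset.mem_univ χ)
  have h4 : 1 ≤ m χ := Nat.one_le_iff_ne_zero.mpr hχ
  have h5 : 1 ≤ m χ ^ 2 := Nat.one_le_pow _ _ h4
  have h6 : ∑ ψ ∈ Finset.univ.erase χ, m ψ ^ 2 = 0 := by omega
  have h7 : m χ ^ 2 = 1 := by omega
  refine ⟨χ, ?_, ?_⟩
  · rw [hm, show m χ = 1 from by nlinarith [h7, h4]]
    simp
  · intro ψ hψ
    have h8 := Finset.sum_eq_zero_iff.mp h6 ψ (Finset.mem_erase.mpr ⟨hψ, Finset.mem_univ ψ⟩)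
    rw [hm, pow_eq_zero_iff (two_ne_zero) |>.mp h8]
    simp

/-- the values of a primitive idempotent that meets `χ` -/
theorem ev_prim {v : MonoidAlgebra K H} (hv : v * v = v) (hp : ∀ z, ∃ c : K, v * z * v = c • v)
    {χ : H → K} (hχ : IsIr K H χ) (h0 : ev χ v ≠ 0) :
    ev χ v = 1 ∧ ∀ ψ, IsIr K H ψ → ψ ≠ χ → ev ψ v = 0 := by
  have hv0 : v ≠ 0 := by
    rintro rfl
    exact h0 (map_zero (evL χ))
  obtain ⟨χ', h1, h2⟩ := exists_unique_ev hv hv0 hp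
  have h3 : (⟨χ, hχ⟩ : IrK K H) = χ' := by
    by_contra h
    exact h0 (h2 ⟨χ, hχ⟩ h)
  refine ⟨?_, ?_⟩
  · have h4 : χ = χ'.1 := congrArg Subtype.val h3
    rw [h4]
    exact h1
  · intro ψ hψ hne
    exact h2 ⟨ψ, hψ⟩ fun h => hne (by
      have h5 := congrArg Subtype.val (h.trans h3.symm)
      exact h5)

/-- **A self-adjoint primitive idempotent for each irreducible character, with its values.** -/
theorem exists_eps' {F : Type*} [Field F] [IsAlgClosed F] {σ : F →+* F} (hσ : IsSg σ)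
    {χ : H → K} (hχ : IsIr K H χ) (ι : F →+* K) : ∃ ε : MonoidAlgebra F H, ε * ε = ε ∧
      stG σ ε = ε ∧ ε ≠ 0 ∧ (∀ z, ∃ c : F, ε * z * ε = c • ε) ∧
      (∀ z, ∃ c : K, mc H ι ε * z * mc H ι ε = c • mc H ι ε) ∧ mc H ι ε * mc H ι ε = mc H ι ε ∧
      mc H ι ε ≠ 0 ∧ ev χ (mc H ι ε) = 1 ∧ ∀ ψ, IsIr K H ψ → ψ ≠ χ → ev ψ (mc H ι ε) = 0 := by
  obtain ⟨ε, e1, e2, e3, e4, e5, e6⟩ := exists_eps hσ (⟨χ, hχ⟩ : IrK K H) ι
  have h1 : mc H ι ε * mc H ι ε = mc H ι ε := by rw [← map_mul, e1]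
  obtain ⟨h2, h3⟩ := ev_prim h1 e5 hχ e6
  refine ⟨ε, e1, e2, e3, e4, e5, h1, ?_, h2, h3⟩
  intro h
  exact e6 (by rw [h]; exact map_zero (evL χ))

end Vale.Agent.P180.H6
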