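import Vale.Agent.P180.H6.TowG
import Vale.Agent.P180.H951.TestDef

/-!
P180 (helper6): the statement on towers used by the induction.
-/

set_option linter.all false

namespace Vale.Agent.P180.H6

open Module Vale.Agent.P180 Vale.Agent.P180.R2.H854
open Vale.Agent.P180.H393 (Om)

universe u

/-- **The towers of a space with a form.** -/
theorem towStmt (k : Type u) [Field k] [IsAlgClosed k] [CharZero k] (K E : Type) [Field K]
    [Finite K] [AddCommGroup E] [Module K E] [FiniteDimensional K E] [Finite (E ≃ₗ[K] E)]
    [DecidableEq (Om k K)] (Φ : HForm K E) (hT : Φ.Tr) : H951.TowStmt k Φ := by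
  intro ρ hρ hρ0 m F hmax
  exact TowF.exists_tow k hT ρ hρ hρ0 m F hmax

end Vale.Agent.P180.H6
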