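import Vale.Agent.P180.H19.AtwoB
import Vale.Agent.P180.H568.XB
import Vale.Agent.P180.H805.Herm
import Vale.Agent.P180.H337.Idem

/-!
P180 (helper6): the involution `x* = ∑ σ (x g) g⁻¹` of a group algebra over a field with a proper
involution; self-adjoint primitive idempotents (568, leaf S1b; abstract part by helper805).
-/

set_option linter.all false

namespace Vale.Agent.P180.H6

open Finset Vale.Agent.P180 Vale.Agent.P180.R2.H799 Vale.Agent.P180.R2.H799.BN
open Vale.Agent.P180.H393 (IsIr IsCF ev)
open Vale.Agent.P180.H337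

universe u v

/-- a proper involution of a field -/
structure IsSg {F : Type*} [Field F] (σ : F →+* F) : Prop where
  inv : ∀ x, σ (σ x) = x
  pos : ∀ (n : ℕ) (x : Fin n → F), ∑ i, x i * σ (x i) = 0 → ∀ i, x i = 0

theorem IsSg.fs {F : Type*} [Field F] {σ : F →+* F} (h : IsSg σ) {ι : Type*} (s : Finset ι)
    (x : ι → F) (h0 : ∑ i ∈ s, x i * σ (x i) = 0) : ∀ i ∈ s, x i = 0 := by
  have h1 : ∑ j : Fin s.card, x (s.equivFin.symm j) * σ (x (s.equivFin.symm j)) = 0 := by
    rw [← h0, ← Finset.sum_coe_sort s]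
    exact Equiv.sum_comp s.equivFin.symm (fun i : s => x i * σ (x i))
  intro i hi
  have h2 := h.pos s.card (fun j => x (s.equivFin.symm j)) h1 (s.equivFin ⟨i, hi⟩)
  simpa using h2

/-- complex conjugation -/
theorem isSg_complex : IsSg (starRingEnd ℂ) where
  inv x := by simp
  pos n x h i := by
    have h1 : ∑ i, Complex.normSq (x i) = 0 := by
      have h2 : ((∑ i, Complex.normSq (x i) : ℝ) : ℂ) = 0 := by
        rw [← h]
        push_cast
        exact Finset.sum_congr rfl fun i _ => (Complex.mul_conj (x i)).symm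
      exact_mod_cast h2
    have h3 := (Finset.sum_eq_zero_iff_of_nonneg fun i _ => Complex.normSq_nonneg (x i)).mp h1 i
      (Finset.mem_univ i)
    exact Complex.normSq_eq_zero.mp h3

/-- transport of a proper involution to a subfield -/
theorem IsSg.pull {F K : Type*} [Field F] [Field K] {τ : K →+* K} (h : IsSg τ) (j : F →+* K)
    {σ : F →+* F} (hσ : ∀ x, j (σ x) = τ (j x)) : IsSg σ where
  inv x := j.injective (by rw [hσ, hσ, h.inv])
  pos n x h0 i := by
    apply j.injective
    rw [map_zero]
    refine h.pos n (fun i => j (x i)) ?_ i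
    have h1 := congrArg j h0
    rw [map_sum, map_zero] at h1
    rw [← h1]
    exact Finset.sum_congr rfl fun i _ => by rw [map_mul, hσ]

/-- the algebraic numbers have a proper involution -/
theorem exists_isSg_algebraicClosure : ∃ σ : AlgebraicClosure ℚ →+* AlgebraicClosure ℚ, IsSg σ := by
  haveI : Algebra.IsAlgebraic ℚ (AlgebraicClosure ℚ) := by
    have h := AlgebraicClosure.isAlgebraic ℚ
    convert h
    · rfl
    · exact Subsingleton.elim _ _
  let j : AlgebraicClosure ℚ →ₐ[ℚ] ℂ := IsAlgClosed.lift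
  letI : Algebra (AlgebraicClosure ℚ) ℂ := j.toRingHom.toAlgebra
  haveI : IsScalarTower ℚ (AlgebraicClosure ℚ) ℂ :=
    IsScalarTower.of_algebraMap_eq fun x => (j.commutes x).symm
  let t : ℂ →ₐ[ℚ] ℂ := (Complex.conjAe.toAlgHom.restrictScalars ℚ)
  haveI : IsAlgClosure ℚ (AlgebraicClosure ℚ) := ⟨inferInstance, inferInstance⟩
  haveI : Normal ℚ (AlgebraicClosure ℚ) := IsAlgClosure.normal ℚ (AlgebraicClosure ℚ)
  let s := t.restrictNormal (AlgebraicClosure ℚ)
  refine ⟨s.toRingHom, isSg_complex.pull j.toRingHom fun x => ?_⟩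
  exact t.restrictNormal_commutes (AlgebraicClosure ℚ) x

section star

variable {F : Type*} [Field F] {G : Type*} [Group G] (σ : F →+* F)

/-- the involution of the group algebra -/
noncomputable def stG (x : MonoidAlgebra F G) : MonoidAlgebra F G :=
  MonoidAlgebra.ofCoeff ((x.coeff.mapRange σ (map_zero σ)).equivMapDomain (Equiv.inv G))

theorem stG_coeff (x : MonoidAlgebra F G) (g : G) : (stG σ x).coeff g = σ (x.coeff g⁻¹) := by
  unfold stG
  rw [MonoidAlgebra.coeff_ofCoeff, Finsupp.equivMapDomain_apply, Finsupp.mapRange_apply]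
  rfl

theorem stG_single (g : G) (c : F) :
    stG σ (MonoidAlgebra.single g c) = MonoidAlgebra.single g⁻¹ (σ c) := by
  classical
  apply MonoidAlgebra.coeff_injective
  ext y
  rw [stG_coeff, MonoidAlgebra.coeff_single, MonoidAlgebra.coeff_single, Finsupp.single_apply,
    Finsupp.single_apply]
  by_cases h : g = y⁻¹
  · rw [if_pos h, if_pos (by rw [h, inv_inv])]
  · rw [if_neg h, if_neg (fun h' => h (by rw [← h', inv_inv])), map_zero]

theorem stG_zero : stG σ (0 : MonoidAlgebra F G) = 0 := by
  apply MonoidAlgebra.coeff_injective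
  ext y
  rw [stG_coeff, MonoidAlgebra.coeff_zero, Finsupp.zero_apply, Finsupp.zero_apply, map_zero]

theorem stG_add (x y : MonoidAlgebra F G) : stG σ (x + y) = stG σ x + stG σ y := by
  apply MonoidAlgebra.coeff_injective
  ext g
  rw [stG_coeff, MonoidAlgebra.coeff_add, MonoidAlgebra.coeff_add, Finsupp.add_apply,
    Finsupp.add_apply, map_add, stG_coeff, stG_coeff]

theorem stG_sub (x y : MonoidAlgebra F G) : stG σ (x - y) = stG σ x - stG σ y := by
  apply MonoidAlgebra.coeff_injective
  ext g
  rw [stG_coeff, MonoidAlgebra.coeff_sub, MonoidAlgebra.coeff_sub, Finsupp.sub_apply,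
    Finsupp.sub_apply, map_sub, stG_coeff, stG_coeff]

theorem stG_smul (c : F) (x : MonoidAlgebra F G) : stG σ (c • x) = σ c • stG σ x := by
  apply MonoidAlgebra.coeff_injective
  ext g
  rw [stG_coeff, MonoidAlgebra.coeff_smul_apply, MonoidAlgebra.coeff_smul_apply, smul_eq_mul,
    smul_eq_mul, map_mul, stG_coeff]

/-- `stG` as an additive map -/
noncomputable def stGL : MonoidAlgebra F G →+ MonoidAlgebra F G where
  toFun := stG σ
  map_zero' := stG_zero σ
  map_add' := stG_add σ

theorem stG_sum {ι : Type*} (s : Finset ι) (f : ι → MonoidAlgebra F G) :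
    stG σ (∑ i ∈ s, f i) = ∑ i ∈ s, stG σ (f i) := map_sum (stGL σ) f s

theorem stG_mul (x y : MonoidAlgebra F G) : stG σ (x * y) = stG σ y * stG σ x := by
  induction x using MonoidAlgebra.induction_linear with
  | zero => rw [zero_mul, stG_zero, mul_zero]
  | add x x' hx hx' => rw [add_mul, stG_add, stG_add, mul_add, hx, hx']
  | single g a =>
    induction y using MonoidAlgebra.induction_linear with
    | zero => rw [mul_zero, stG_zero, zero_mul]
    | add y y' hy hy' => rw [mul_add, stG_add, stG_add, add_mul, hy, hy']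
    | single h b =>
      rw [MonoidAlgebra.single_mul_single, stG_single, stG_single, stG_single,
        MonoidAlgebra.single_mul_single, mul_inv_rev, map_mul, mul_comm (σ a)]

theorem stG_one : stG σ (1 : MonoidAlgebra F G) = 1 := by
  rw [MonoidAlgebra.one_def, stG_single, inv_one, map_one]

variable {σ}

theorem stG_stG (h : IsSg σ) (x : MonoidAlgebra F G) : stG σ (stG σ x) = x := by
  apply MonoidAlgebra.coeff_injective
  ext g
  rw [stG_coeff, stG_coeff, inv_inv, h.inv]

theorem stG_proper (h : IsSg σ) {x : MonoidAlgebra F G} (hx : x * stG σ x = 0) : x = 0 := by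
  have h1 : (x * stG σ x).coeff 1 = ∑ a ∈ x.coeff.support, x.coeff a * σ (x.coeff a) := by
    rw [MonoidAlgebra.coeff_mul_apply_left, Finsupp.sum]
    refine Finset.sum_congr rfl fun a _ => ?_
    rw [stG_coeff, mul_one, inv_inv]
  rw [hx, MonoidAlgebra.coeff_zero, Finsupp.zero_apply] at h1
  have h2 := h.fs x.coeff.support (fun a => x.coeff a) h1.symm
  apply MonoidAlgebra.coeff_injective
  ext g
  rw [MonoidAlgebra.coeff_zero, Finsupp.zero_apply]
  by_contra hg
  exact hg (h2 g (Finsupp.mem_support_iff.mpr hg))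

/-- 805's structure -/
theorem pi_stG (h : IsSg σ) : H805.PI (stG σ : MonoidAlgebra F G → MonoidAlgebra F G) where
  mul := stG_mul σ
  sub := stG_sub σ
  inv := stG_stG h
  prop _ := stG_proper h

/-- 568's structure -/
noncomputable def pstar (G : Type*) [Group G] (h : IsSg σ) :
    H568.XT.PStar F (MonoidAlgebra F G) where
  st := stG σ
  sig := σ
  st_mul := stG_mul σ
  st_add := stG_add σ
  st_smul := stG_smul σ
  st_st := stG_stG h
  proper _ := stG_proper h

/-- the involution commutes with maps of groups -/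
theorem stG_mp {F : Type u} [Field F] {σ : F →+* F} {H G : Type} [Group H] [Group G] (f : H →* G)
    (x : MonoidAlgebra F H) :
    stG σ (H19.Atwo.mp f x) = H19.Atwo.mp f (stG σ x) := by
  induction x using MonoidAlgebra.induction_linear with
  | zero => rw [map_zero, stG_zero, stG_zero, map_zero]
  | add x y hx hy => rw [map_add, stG_add, stG_add, map_add, hx, hy]
  | single g c =>
    rw [H19.Atwo.mp_single, stG_single, stG_single, H19.Atwo.mp_single, map_inv]

theorem stG_av [Finite G] (U : Subgroup G) : stG σ (av F U) = av F U := by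
  unfold av
  letI := Fintype.ofFinite U
  rw [stG_smul, stG_sum, map_inv₀, map_natCast]
  congr 1
  refine Fintype.sum_equiv (Equiv.inv U) _ _ fun v => ?_
  rw [stG_single, map_one]
  rfl

theorem stG_mem_SubAlg {S : Subgroup G} {x : MonoidAlgebra F G} (hx : x ∈ SubAlg F S) :
    stG σ x ∈ SubAlg F S := by
  intro g hg
  rw [stG_coeff] at hg
  have h1 : x.coeff g⁻¹ ≠ 0 := by
    intro h
    exact hg (by rw [h, map_zero])
  have h2 : g⁻¹ ∈ S := hx _ h1
  exact S.inv_mem_iff.mp h2

end star

section Tr

variable {F : Type*} [Field F] {K : Type*} [Field K] (ι : F →+* K) {G : Type*} [Group G]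

/-- change of coefficients -/
noncomputable def mc (G : Type*) [Group G] (ι : F →+* K) :
    MonoidAlgebra F G →+* MonoidAlgebra K G := MonoidAlgebra.mapRingHom G ι

theorem mc_coeff (x : MonoidAlgebra F G) (g : G) : (mc G ι x).coeff g = ι (x.coeff g) :=
  MonoidAlgebra.coeff_mapRingHom _ _ _

theorem mc_single (g : G) (c : F) :
    mc G ι (MonoidAlgebra.single g c) = MonoidAlgebra.single g (ι c) := by
  classical
  apply MonoidAlgebra.coeff_injective
  ext y
  rw [mc_coeff, MonoidAlgebra.coeff_single, MonoidAlgebra.coeff_single, Finsupp.single_apply,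
    Finsupp.single_apply]
  split_ifs <;> simp

theorem mc_smul (c : F) (x : MonoidAlgebra F G) : mc G ι (c • x) = ι c • mc G ι x := by
  apply MonoidAlgebra.coeff_injective
  ext y
  rw [mc_coeff, MonoidAlgebra.coeff_smul_apply, MonoidAlgebra.coeff_smul_apply, smul_eq_mul,
    smul_eq_mul, map_mul, mc_coeff]

theorem mc_injective : Function.Injective (mc G ι) := by
  intro a b h
  apply MonoidAlgebra.coeff_injective
  ext y
  apply ι.injective
  rw [← mc_coeff, ← mc_coeff, h]

theorem mc_mp {F : Type u} [Field F] {K : Type v} [Field K] (ι : F →+* K) {H G : Type} [Group H]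
    [Group G] (f : H →* G) (x : MonoidAlgebra F H) :
    mc G ι (H19.Atwo.mp f x) = H19.Atwo.mp f (mc H ι x) := by
  induction x using MonoidAlgebra.induction_linear with
  | zero => simp only [map_zero]
  | add x y hx hy => rw [map_add, map_add, map_add, map_add, hx, hy]
  | single g c => rw [H19.Atwo.mp_single, mc_single, mc_single, H19.Atwo.mp_single]

theorem mc_av [Finite G] (U : Subgroup G) : mc G ι (av F U) = av K U := by
  unfold av
  letI := Fintype.ofFinite U
  rw [mc_smul, map_sum, map_inv₀, map_natCast]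
  congr 1
  refine Finset.sum_congr rfl fun v _ => ?_
  rw [mc_single, map_one]

theorem mc_mem_SubAlg {S : Subgroup G} {x : MonoidAlgebra F G} (hx : x ∈ SubAlg F S) :
    mc G ι x ∈ SubAlg K S := by
  intro g hg
  rw [mc_coeff] at hg
  refine hx g fun h => hg ?_
  rw [h, map_zero]

/-- a primitive idempotent stays primitive -/
theorem prim_mc {ε : MonoidAlgebra F G} (hp : ∀ z, ∃ c : F, ε * z * ε = c • ε)
    (z : MonoidAlgebra K G) : ∃ c : K, mc G ι ε * z * mc G ι ε = c • mc G ι ε := by
  induction z using MonoidAlgebra.induction_linear with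
  | zero => exact ⟨0, by rw [mul_zero, zero_mul, zero_smul]⟩
  | add x y hx hy =>
    obtain ⟨a, ha⟩ := hx
    obtain ⟨b, hb⟩ := hy
    exact ⟨a + b, by rw [mul_add, add_mul, ha, hb, add_smul]⟩
  | single g c =>
    obtain ⟨a, ha⟩ := hp (MonoidAlgebra.single g 1)
    refine ⟨c * ι a, ?_⟩
    have h1 : MonoidAlgebra.single g c = c • mc G ι (MonoidAlgebra.single g 1) := by
      rw [mc_single, map_one, MonoidAlgebra.smul_single, smul_eq_mul, mul_one]
    rw [h1, mul_smul_comm, smul_mul_assoc, ← map_mul, ← map_mul, ha, mc_smul, smul_smul]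

end Tr

section Ev

variable {K : Type u} [Field K] [IsAlgClosed K] [CharZero K] {H : Type} [Group H] [Fintype H]

/-- the degree of an irreducible character is not zero -/
theorem IsIr_one_ne {χ : H → K} (h : IsIr K H χ) : χ 1 ≠ 0 := by
  intro h1
  obtain ⟨V, _, _, _, ρ, hρ⟩ := h.1
  have h2 : (Module.finrank K V : K) = 0 := by
    rw [← h1, ← hρ 1, Representation.char_one]
  have h3 : Module.finrank K V = 0 := by exact_mod_cast h2
  have h4 : ∀ g, χ g = 0 := by
    intro g
    rw [← hρ g]
    have : Subsingleton V := Module.finrank_zero_iff.mp h3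
    have h5 : ρ g = 0 := Subsingleton.elim _ _
    rw [Representation.character, h5, map_zero]
  have h6 := h.2
  unfold R2.H471.Hc.ip at h6
  rw [Finset.sum_eq_zero fun g _ => by rw [h4, zero_mul], mul_zero] at h6
  exact zero_ne_one h6

theorem ev_one (χ : H → K) : ev χ (1 : MonoidAlgebra K H) = χ 1 := by
  rw [MonoidAlgebra.one_def, ev_single, one_mul]

/-- **A self-adjoint primitive idempotent for each irreducible character.** -/
theorem exists_eps {F : Type*} [Field F] [IsAlgClosed F] {σ : F →+* F} (hσ : IsSg σ)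
    (χ : IrK K H) (ι : F →+* K) : ∃ ε : MonoidAlgebra F H, ε * ε = ε ∧ stG σ ε = ε ∧ ε ≠ 0 ∧
      (∀ z, ∃ c : F, ε * z * ε = c • ε) ∧ (∀ z, ∃ c : K, mc H ι ε * z * mc H ι ε = c • mc H ι ε) ∧
      ev χ.1 (mc H ι ε) ≠ 0 := by
  have hfin : FiniteDimensional F (MonoidAlgebra F H) :=
    Module.Finite.equiv (MonoidAlgebra.coeffLinearEquiv F (M := H) (S := F)).symm
  let φ : MonoidAlgebra F H →+ K := (evL χ.1).toAddMonoidHom.comp (mc H ι).toAddMonoidHom
  have h1 : φ 1 ≠ 0 := by
    change ev χ.1 (mc H ι 1) ≠ 0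
    rw [map_one, ev_one]
    exact IsIr_one_ne χ.2
  obtain ⟨ε, e1, e2, e3, e4, e5⟩ := H805.exists_herm (F := F) (pi_stG hσ) φ h1
  exact ⟨ε, e1, e2, e3, e4, prim_mc ι e4, e5⟩

end Ev

end Vale.Agent.P180.H6
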