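import Vale.Agent.P180.H393.TowDat
import Vale.Agent.P180.H19.AtwoF
import Vale.Agent.P180.H568.XA
import Vale.Agent.P180.H897.TowDef

/-!
P180 (helper6): the tower of a frame is an instance of the abstract tower: the plumbing.
-/

set_option linter.all false

namespace Vale.Agent.P180.H6.TowF

open Module Vale.Agent.P180 Vale.Agent.P180.R2.H854 Vale.Agent.P180.R2.H799
open Vale.Agent.P180.R2.H799.BN
open Vale.Agent.P180.H393.Fm Vale.Agent.P180.H393.Fm.Frame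
open Vale.Agent.P180.H19.Atwo

universe u

section Alg

variable {k : Type u} [Field k] {G : Type} [Group G]

theorem sum_single (x : MonoidAlgebra k G) :
    x = ∑ g ∈ x.coeff.support, x.coeff g • MonoidAlgebra.single g (1 : k) := by
  classical
  apply MonoidAlgebra.coeff_injective
  ext y
  rw [MonoidAlgebra.coeff_sum, Finsupp.finset_sum_apply]
  have h1 : ∀ g, ((x.coeff g • MonoidAlgebra.single g (1 : k)).coeff y) =
      if g = y then x.coeff g else 0 := by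
    intro g
    rw [MonoidAlgebra.smul_single, smul_eq_mul, mul_one, MonoidAlgebra.coeff_single,
      Finsupp.single_apply]
  rw [Finset.sum_congr rfl fun g _ => h1 g, Finset.sum_ite_eq']
  by_cases h : y ∈ x.coeff.support
  · rw [if_pos h]
  · rw [if_neg h]
    exact Finsupp.notMem_support_iff.mp h

theorem mem_sub {S : Subgroup G} {x : MonoidAlgebra k G} (hx : x ∈ SubAlg k S) {g : G}
    (hg : g ∈ x.coeff.support) : g ∈ S := hx g (Finsupp.mem_support_iff.mp hg)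

/-- linear extension -/
theorem mem_of_single {S : Subgroup G} {P : Submodule k (MonoidAlgebra k G)}
    {a b : MonoidAlgebra k G} (h : ∀ g ∈ S, a * MonoidAlgebra.single g 1 * b ∈ P)
    {x : MonoidAlgebra k G} (hx : x ∈ SubAlg k S) : a * x * b ∈ P := by
  rw [sum_single x, Finset.mul_sum, Finset.sum_mul]
  refine Submodule.sum_mem _ fun g hg => ?_
  rw [mul_smul_comm, smul_mul_assoc]
  exact P.smul_mem _ (h g (mem_sub hx hg))

theorem comm_of_single {S : Subgroup G} {b : MonoidAlgebra k G}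
    (h : ∀ g ∈ S, MonoidAlgebra.single g (1 : k) * b = b * MonoidAlgebra.single g 1)
    {x : MonoidAlgebra k G} (hx : x ∈ SubAlg k S) : b * x = x * b := by
  rw [sum_single x, Finset.mul_sum, Finset.sum_mul]
  refine Finset.sum_congr rfl fun g hg => ?_
  rw [mul_smul_comm, smul_mul_assoc, h g (mem_sub hx hg)]

theorem nm_of [Finite G] {S V : Subgroup G} (h : ∀ g ∈ S, ∀ u ∈ V, g * u * g⁻¹ ∈ V) : S ≤ Nm V := by
  intro g hg
  rw [mem_Nm]
  intro v
  refine ⟨fun hv => h g hg v hv, fun hv => ?_⟩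
  have h1 := h g⁻¹ (S.inv_mem hg) _ hv
  have e : g⁻¹ * (g * v * g⁻¹) * g⁻¹⁻¹ = v := by group
  rwa [e] at h1

theorem mp_mem {H : Type} [Group H] {S : Subgroup G} (f : H →* G) (h : ∀ x, f x ∈ S)
    (x : MonoidAlgebra k H) : mp f x ∈ SubAlg k S := by
  rw [sum_single x, map_sum]
  refine Subalgebra.sum_mem _ fun g _ => ?_
  rw [map_smul, mp_single]
  exact Subalgebra.smul_mem _ (single_mem_SubAlg (h g) 1) _

theorem single_comm_mp {H : Type} [Group H] (f : H →* G) {g : G} (h : ∀ x, f x * g = g * f x)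
    (x : MonoidAlgebra k H) : MonoidAlgebra.single g (1 : k) * mp f x =
      mp f x * MonoidAlgebra.single g 1 := by
  refine (mp_rel (fun y => ?_) x).symm
  rw [MonoidAlgebra.single_mul_single, MonoidAlgebra.single_mul_single, h]

end Alg

section Fra

variable {k : Type u} [Field k] [CharZero k] {K E : Type} [Field K] [AddCommGroup E] [Module K E]
  [Finite (E ≃ₗ[K] E)] {Φ : HForm K E} {ι : Type} [Fintype ι] [DecidableEq ι] {m : ℕ}
  (F : Frame Φ ι m) {ε : MonoidAlgebra k ((ι → K) ≃ₗ[K] (ι → K))}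

theorem H_nm {i : ℕ} (hi : i < m) : F.H i ≤ Nm (F.U i hi) :=
  nm_of fun g hg u hu => F.H_norm_U hi hg hu

theorem gl_nm {i : ℕ} (hi : i < m) (g : (ι → K) ≃ₗ[K] (ι → K)) :
    (F.hyp i hi).gl g ∈ Nm (F.U i hi) := by
  refine nm_of (S := (F.hyp i hi).gl.range) ?_ ⟨g, rfl⟩
  rintro _ ⟨g', rfl⟩ u hu
  exact F.gl_norm_U hi g' hu

theorem gl_av {i : ℕ} (hi : i < m) (x : MonoidAlgebra k ((ι → K) ≃ₗ[K] (ι → K))) :
    mp (F.hyp i hi).gl x * av k (F.U i hi) = av k (F.U i hi) * mp (F.hyp i hi).gl x := by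
  refine mp_rel (fun g => ?_) x
  exact single_comm_av (gl_nm F hi g)

theorem EE_mem {i : ℕ} (hi : i < m) : F.EE ε i ∈ SubAlg k (F.H (i + 1)) := by
  rw [F.EE_eq ε hi]
  refine Subalgebra.mul_mem _ (SubAlg_mono inf_le_right (av_mem _)) ?_
  exact mp_mem _ (fun x => F.gl_mem_H hi x) _

theorem EE_comm {i : ℕ} (hi : i < m) : ∀ x ∈ SubAlg k (F.H i), F.EE ε i * x = x * F.EE ε i := by
  intro x hx
  refine comm_of_single (fun g hg => ?_) hx
  rw [F.EE_eq ε hi, ← mul_assoc, single_comm_av (H_nm F hi hg), mul_assoc,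
    single_comm_mp _ (fun y => F.gl_comm_H hi y hg), mul_assoc]

theorem EE_idem (hi' : ε * ε = ε) {i : ℕ} (hi : i < m) : F.EE ε i * F.EE ε i = F.EE ε i := by
  rw [F.EE_eq ε hi]
  have h1 := gl_av F hi ε
  have h2 : av k (F.U i hi) * av k (F.U i hi) = av k (F.U i hi) := av_idem (cardU _)
  calc av k (F.U i hi) * mp (F.hyp i hi).gl ε * (av k (F.U i hi) * mp (F.hyp i hi).gl ε)
      = av k (F.U i hi) * (mp (F.hyp i hi).gl ε * av k (F.U i hi)) * mp (F.hyp i hi).gl ε := by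
        simp only [mul_assoc]
    _ = (av k (F.U i hi) * av k (F.U i hi)) * (mp (F.hyp i hi).gl ε * mp (F.hyp i hi).gl ε) := by
        rw [h1]; simp only [mul_assoc]
    _ = _ := by rw [h2, ← map_mul, hi']

theorem Um_le {i : ℕ} (hi : i < m) : F.Um i hi ≤ F.H (i + 1) := by
  intro x hx
  have h1 := (mem_conjS.mp hx).2
  have h2 := F.tt_mem_H hi
  have h3 := (F.H (i + 1)).mul_mem ((F.H (i + 1)).mul_mem h2 h1) ((F.H (i + 1)).inv_mem h2)
  have e : (F.hyp i hi).tt * ((F.hyp i hi).tt⁻¹ * x * (F.hyp i hi).tt) * (F.hyp i hi).tt⁻¹ = x := by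
    group
  rwa [e] at h3

theorem Um_nm {i : ℕ} (hi : i < m) : F.H i ≤ Nm (F.Um i hi) := by
  refine nm_of fun g hg u hu => ?_
  unfold Frame.Um at hu ⊢
  rw [mem_conjS] at hu ⊢
  have h1 := F.H_norm_U hi hg hu
  have h2 := F.tt_comm_H hi hg
  have h3 : g⁻¹ * (F.hyp i hi).tt = (F.hyp i hi).tt * g⁻¹ := by
    rw [inv_mul_eq_iff_eq_mul, ← mul_assoc, ← h2, mul_inv_cancel_right]
  have h4 : (F.hyp i hi).tt⁻¹ * g = g * (F.hyp i hi).tt⁻¹ := by
    rw [inv_mul_eq_iff_eq_mul, ← mul_assoc, h2, mul_inv_cancel_right]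
  have e : (F.hyp i hi).tt⁻¹ * (g * u * g⁻¹) * (F.hyp i hi).tt =
      g * ((F.hyp i hi).tt⁻¹ * u * (F.hyp i hi).tt) * g⁻¹ := by
    calc (F.hyp i hi).tt⁻¹ * (g * u * g⁻¹) * (F.hyp i hi).tt
        = ((F.hyp i hi).tt⁻¹ * g) * u * (g⁻¹ * (F.hyp i hi).tt) := by group
      _ = _ := by rw [h3, h4]; group
  rw [e]
  exact h1

theorem XX_mem (g0 : (ι → K) ≃ₗ[K] (ι → K)) {i : ℕ} (hi : i < m) :
    F.XX ε g0 i ∈ SubAlg k (F.H (i + 1)) := by
  unfold Frame.XX
  exact Subalgebra.mul_mem _ (Subalgebra.mul_mem _ (EE_mem F hi)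
    (single_mem_SubAlg (F.tau_mem g0 hi) 1)) (EE_mem F hi)

theorem XN_mem {i : ℕ} (hi : i < m) : F.XN ε i ∈ SubAlg k (F.H (i + 1)) := by
  rw [F.XN_eq ε hi]
  exact Subalgebra.mul_mem _ (Subalgebra.mul_mem _ (EE_mem F hi)
    (SubAlg_mono (Um_le F hi) (av_mem _))) (EE_mem F hi)

theorem TT_mem {i : ℕ} (hi : i + 1 < m) : F.TT ε i ∈ SubAlg k (F.H (i + 2)) := by
  rw [F.TT_eq ε hi]
  exact Subalgebra.mul_mem _ (Subalgebra.mul_mem _ (EE_mem F hi)
    (single_mem_SubAlg (F.s_mem hi) 1)) (EE_mem F hi)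

theorem comm3 {A : Type*} [Ring A] {a b x : A} (ha : a * x = x * a) (hb : b * x = x * b) :
    a * b * a * x = x * (a * b * a) := by
  calc a * b * a * x = a * b * (a * x) := by simp only [mul_assoc]
    _ = a * (b * x) * a := by rw [ha]; simp only [mul_assoc]
    _ = (a * x) * b * a := by rw [hb]; simp only [mul_assoc]
    _ = _ := by rw [ha]; simp only [mul_assoc]

theorem XX_comm (g0 : (ι → K) ≃ₗ[K] (ι → K)) {i : ℕ} (hi : i < m) :
    ∀ x ∈ SubAlg k (F.H i), F.XX ε g0 i * x = x * F.XX ε g0 i := by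
  intro x hx
  unfold Frame.XX
  refine comm3 (EE_comm F hi x hx) ?_
  refine comm_of_single (fun g hg => ?_) hx
  rw [MonoidAlgebra.single_mul_single, MonoidAlgebra.single_mul_single, F.tau_comm g0 hi hg]

theorem XN_comm {i : ℕ} (hi : i < m) :
    ∀ x ∈ SubAlg k (F.H i), F.XN ε i * x = x * F.XN ε i := by
  intro x hx
  rw [F.XN_eq ε hi]
  refine comm3 (EE_comm F hi x hx) ?_
  exact comm_of_single (fun g hg => single_comm_av (Um_nm F hi hg)) hx

theorem TT_comm {i : ℕ} (hi : i + 1 < m) :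
    ∀ x ∈ SubAlg k (F.H i), F.TT ε i * x = x * F.TT ε i := by
  intro x hx
  rw [F.TT_eq ε hi]
  refine comm3 (EE_comm F hi x (SubAlg_mono (F.H_mono (Nat.le_succ i)) hx)) ?_
  refine comm_of_single (fun g hg => ?_) hx
  rw [MonoidAlgebra.single_mul_single, MonoidAlgebra.single_mul_single, F.s_comm hi hg]

theorem E_X {A : Type*} [Ring A] {a b : A} (ha : a * a = a) : a * (a * b * a) = a * b * a := by
  rw [← mul_assoc, ← mul_assoc, ha]

theorem X_E {A : Type*} [Ring A] {a b : A} (ha : a * a = a) : (a * b * a) * a = a * b * a := by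
  rw [mul_assoc, ha]

theorem cj_sw : (H19.Atwo.cj sw : (ι ⊕ ι → K) ≃ₗ[K] (ι ⊕ ι → K)) = swL := by
  ext1 a
  exact ext_lr rfl rfl

/-- **19's relations for the frame.** -/
theorem TT_rel [Finite K] [Nonempty ι] [Fintype ((ι → K) ≃ₗ[K] (ι → K))]
    {φ : MonoidAlgebra k ((ι → K) ≃ₗ[K] (ι → K)) → k} {c w : k} (hε : Eps ε φ c w)
    {i : ℕ} (hi : i + 1 < m) :
    F.EE ε (i + 1) * F.EE ε i = F.EE ε i * F.EE ε (i + 1) ∧
    F.EE ε (i + 1) * F.TT ε i = F.TT ε i ∧ F.TT ε i * F.EE ε (i + 1) = F.TT ε i ∧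
    F.EE ε i * F.TT ε i = F.TT ε i ∧ F.TT ε i * F.EE ε i = F.TT ε i ∧
    F.TT ε i * F.TT ε i = ((Nat.card ((ι → K) →ₗ[K] (ι → K)) : k)⁻¹ * (w * c)) • F.TT ε i +
      (Nat.card ((ι → K) →ₗ[K] (ι → K)) : k)⁻¹ • (F.EE ε (i + 1) * F.EE ε i) := by
  have h0 : i < m := Nat.lt_of_succ_lt hi
  obtain ⟨-, -, h3, h4, h5, h6, h7, h8⟩ := hypRel (P1 := F.hyp (i + 1) hi) (P2 := F.hyp i h0)
    (PP := F.hyp2 i hi) (I := F.H (i + 2)) (J := F.H (i + 1)) (E1 := F.EE ε (i + 1))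
    (E0 := F.EE ε i) (T := F.TT ε i) (fun a b => by rw [hyp2_x]; rfl)
    (fun a b => by rw [hyp2_y]; rfl) (F.H_le _) (by rw [inf_comm]; exact F.H_eq hi)
    (fun g => F.gl2_mem hi g) (F.tt_mem_H hi) hε (F.EE_eq ε hi) (F.EE_eq ε h0) (by
      rw [F.TT_eq ε hi, cj_sw]
      rfl)
  exact ⟨h3, h4, h5, h6, h7, h8⟩

end Fra

end Vale.Agent.P180.H6.TowF
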