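import Vale.Agent.P180.H393.Fr
import Vale.Agent.P180.H568.XC

/-!
P180 (helper6): the embedded `GL(A × A)` of two neighbouring pairs of a frame, formulas.
-/

set_option linter.all false

namespace Vale.Agent.P180.H6.Pd

open Module Vale.Agent.P180 Vale.Agent.P180.R2.H854 Vale.Agent.P180.R2.H799
open Vale.Agent.P180.R2.H799.BN
open Vale.Agent.P180.H393.Fm Vale.Agent.P180.H393.Fm.Frame
open Vale.Agent.P180.H19.Atwo (D1 D2 up lo sw up_apply lo_apply sw_apply D1_apply D2_apply)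

variable {K E : Type} [Field K] [AddCommGroup E] [Module K E]

section lin

variable {ι : Type}

/-- functions on a sum as pairs -/
def eS (K ι : Type) [Field K] : (ι ⊕ ι → K) ≃ₗ[K] (ι → K) × (ι → K) where
  toFun a := (lft a, rgt a)
  map_add' _ _ := rfl
  map_smul' _ _ := rfl
  invFun p := Sum.elim p.1 p.2
  left_inv a := by
    funext i
    rcases i with i | i <;> rfl
  right_inv p := rfl

/-- the conjugation -/
def cE (K ι : Type) [Field K] :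
    (((ι → K) × (ι → K)) ≃ₗ[K] ((ι → K) × (ι → K))) →* ((ι ⊕ ι → K) ≃ₗ[K] (ι ⊕ ι → K)) where
  toFun g := ((eS K ι).trans g).trans (eS K ι).symm
  map_one' := by
    ext1 a
    exact (eS K ι).symm_apply_apply a
  map_mul' g h := by
    ext1 a
    change (eS K ι).symm (g (h ((eS K ι) a))) =
      (eS K ι).symm (g ((eS K ι) ((eS K ι).symm (h ((eS K ι) a)))))
    rw [LinearEquiv.apply_symm_apply]

theorem cE_apply (g : ((ι → K) × (ι → K)) ≃ₗ[K] ((ι → K) × (ι → K))) (a : ι ⊕ ι → K) :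
    cE K ι g a = Sum.elim (g (lft a, rgt a)).1 (g (lft a, rgt a)).2 := rfl

theorem lft_cE (g : ((ι → K) × (ι → K)) ≃ₗ[K] ((ι → K) × (ι → K))) (a : ι ⊕ ι → K) :
    lft (cE K ι g a) = (g (lft a, rgt a)).1 := rfl

theorem rgt_cE (g : ((ι → K) × (ι → K)) ≃ₗ[K] ((ι → K) × (ι → K))) (a : ι ⊕ ι → K) :
    rgt (cE K ι g a) = (g (lft a, rgt a)).2 := rfl

theorem ext_lr {a b : ι ⊕ ι → K} (h1 : lft a = lft b) (h2 : rgt a = rgt b) : a = b := by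
  funext i
  rcases i with i | i
  · exact congrFun h1 i
  · exact congrFun h2 i

theorem cE_sw : cE K ι sw = swL := by
  ext1 a
  refine ext_lr ?_ ?_ <;> rfl

variable [Fintype ι] [DecidableEq ι]

/-- the adjoint of a linear map with respect to the standard pairing -/
def ad (θ : K →+* K) (hθ : ∀ c, θ (θ c) = c) (x : (ι → K) →ₗ[K] (ι → K)) :
    (ι → K) →ₗ[K] (ι → K) where
  toFun b := fun i => θ (hh θ (x (Pi.single i 1)) b)
  map_add' b b' := by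
    funext i
    rw [hh_add_right, map_add]
    rfl
  map_smul' c b := by
    funext i
    rw [hh_smul_right, map_mul, hθ]
    rfl

theorem hh_ad {θ : K →+* K} (hθ : ∀ c, θ (θ c) = c) (x : (ι → K) →ₗ[K] (ι → K)) (a b : ι → K) :
    hh θ (x a) b = hh θ a (ad θ hθ x b) := by
  have h1 : x a = ∑ i, a i • x (Pi.single i 1) := by
    conv_lhs => rw [Hyp.eq_sum a]
    rw [map_sum]
    exact Finset.sum_congr rfl fun i _ => map_smul x _ _
  have h2 : ∀ (s : Finset ι) (f : ι → (ι → K)), hh θ (∑ i ∈ s, f i) b = ∑ i ∈ s, hh θ (f i) b := by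
    intro s f
    induction s using Finset.induction_on with
    | empty => simp [hh_zero_left]
    | insert i s hi ih => rw [Finset.sum_insert hi, Finset.sum_insert hi, hh_add_left, ih]
  rw [h1, h2]
  unfold hh
  refine Finset.sum_congr rfl fun i _ => ?_
  change hh θ (a i • x (Pi.single i 1)) b = a i * θ (θ (hh θ (x (Pi.single i 1)) b))
  rw [hh_smul_left, hθ]

theorem hh_ad' {θ : K →+* K} (hθ : ∀ c, θ (θ c) = c) (x : (ι → K) →ₗ[K] (ι → K)) (a b : ι → K) :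
    hh θ (ad θ hθ x a) b = hh θ a (x b) := by
  rw [hh_symm hθ b, ← hh_ad hθ, ← hh_symm hθ]

theorem ad_ad {θ : K →+* K} (hθ : ∀ c, θ (θ c) = c) (x : (ι → K) →ₗ[K] (ι → K)) :
    ad θ hθ (ad θ hθ x) = x := by
  apply LinearMap.ext
  intro b
  apply hh_ext_right hθ
  intro a
  rw [← hh_ad hθ, hh_ad' hθ]

theorem ad_neg {θ : K →+* K} (hθ : ∀ c, θ (θ c) = c) (x : (ι → K) →ₗ[K] (ι → K)) :
    ad θ hθ (-x) = -ad θ hθ x := by
  apply LinearMap.ext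
  intro b
  apply hh_ext_right hθ
  intro a
  have h0 : ∀ c d : ι → K, hh θ (-c) d = -hh θ c d := fun c d => by
    rw [← neg_one_smul K c, hh_smul_left, neg_one_mul]
  have h0' : ∀ c d : ι → K, hh θ c (-d) = -hh θ c d := fun c d => by
    rw [← neg_one_smul K d, hh_smul_right, map_neg, map_one, neg_one_mul]
  rw [← hh_ad hθ]
  change hh θ (-(x a)) b = hh θ a (-(ad θ hθ x b))
  rw [h0, h0', hh_ad hθ]

theorem adjL_D1 {θ : K →+* K} (hθ : ∀ c, θ (θ c) = c) (g : (ι → K) ≃ₗ[K] (ι → K))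
    (a : ι ⊕ ι → K) :
    lft (adjL θ (cE K ι (D1 g)) a) = adjL θ g (lft a) ∧
      rgt (adjL θ (cE K ι (D1 g)) a) = rgt a := by
  have h0 : adjL θ (cE K ι (D1 g)) a = Sum.elim (adjL θ g (lft a)) (rgt a) := by
    apply hh_ext_right hθ
    intro c
    rw [hh_adjL' hθ, ← map_inv, ← map_inv, hh_sum, hh_sum]
    change hh θ (g⁻¹ (lft c)) (lft a) + hh θ (rgt c) (rgt a) =
      hh θ (lft c) (adjL θ g (lft a)) + hh θ (rgt c) (rgt a)
    rw [hh_adjL' hθ]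
  rw [h0]
  exact ⟨rfl, rfl⟩

theorem adjL_D2 {θ : K →+* K} (hθ : ∀ c, θ (θ c) = c) (g : (ι → K) ≃ₗ[K] (ι → K))
    (a : ι ⊕ ι → K) :
    lft (adjL θ (cE K ι (D2 g)) a) = lft a ∧
      rgt (adjL θ (cE K ι (D2 g)) a) = adjL θ g (rgt a) := by
  have h0 : adjL θ (cE K ι (D2 g)) a = Sum.elim (lft a) (adjL θ g (rgt a)) := by
    apply hh_ext_right hθ
    intro c
    rw [hh_adjL' hθ, ← map_inv, ← map_inv, hh_sum, hh_sum]
    change hh θ (lft c) (lft a) + hh θ (g⁻¹ (rgt c)) (rgt a) =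
      hh θ (lft c) (lft a) + hh θ (rgt c) (adjL θ g (rgt a))
    rw [hh_adjL' hθ]
  rw [h0]
  exact ⟨rfl, rfl⟩

theorem up_inv (x : (ι → K) →ₗ[K] (ι → K)) : (up x)⁻¹ = up (-x) := by
  rw [inv_eq_iff_mul_eq_one]
  apply LinearEquiv.ext
  intro v
  refine Prod.ext ?_ rfl
  change v.1 + -(x v.2) + x v.2 = v.1
  abel

theorem lo_inv (x : (ι → K) →ₗ[K] (ι → K)) : (lo x)⁻¹ = lo (-x) := by
  rw [inv_eq_iff_mul_eq_one]
  apply LinearEquiv.ext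
  intro v
  refine Prod.ext rfl ?_
  change v.2 + -(x v.1) + x v.1 = v.2
  abel

theorem adjL_up {θ : K →+* K} (hθ : ∀ c, θ (θ c) = c) (x : (ι → K) →ₗ[K] (ι → K))
    (a : ι ⊕ ι → K) :
    lft (adjL θ (cE K ι (up x)) a) = lft a ∧
      rgt (adjL θ (cE K ι (up x)) a) = rgt a - ad θ hθ x (lft a) := by
  have h0 : adjL θ (cE K ι (up x)) a = Sum.elim (lft a) (rgt a - ad θ hθ x (lft a)) := by
    apply hh_ext_right hθ
    intro c
    rw [hh_adjL' hθ, ← map_inv, up_inv, hh_sum, hh_sum]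
    change hh θ (lft c + -(x (rgt c))) (lft a) + hh θ (rgt c) (rgt a) =
      hh θ (lft c) (lft a) + hh θ (rgt c) (rgt a - ad θ hθ x (lft a))
    rw [← sub_eq_add_neg, hh_sub_left, hh_sub_right, hh_ad hθ]
    ring
  rw [h0]
  exact ⟨rfl, rfl⟩

theorem adjL_lo {θ : K →+* K} (hθ : ∀ c, θ (θ c) = c) (x : (ι → K) →ₗ[K] (ι → K))
    (a : ι ⊕ ι → K) :
    lft (adjL θ (cE K ι (lo x)) a) = lft a - ad θ hθ x (rgt a) ∧
      rgt (adjL θ (cE K ι (lo x)) a) = rgt a := by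
  have h0 : adjL θ (cE K ι (lo x)) a = Sum.elim (lft a - ad θ hθ x (rgt a)) (rgt a) := by
    apply hh_ext_right hθ
    intro c
    rw [hh_adjL' hθ, ← map_inv, lo_inv, hh_sum, hh_sum]
    change hh θ (lft c) (lft a) + hh θ (rgt c + -(x (lft c))) (rgt a) =
      hh θ (lft c) (lft a - ad θ hθ x (rgt a)) + hh θ (rgt c) (rgt a)
    rw [← sub_eq_add_neg, hh_sub_left, hh_sub_right, hh_ad hθ]
    ring
  rw [h0]
  exact ⟨rfl, rfl⟩

theorem adjL_swL {θ : K →+* K} (hθ : ∀ c, θ (θ c) = c) (a : ι ⊕ ι → K) :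
    lft (adjL θ (swL : (ι ⊕ ι → K) ≃ₗ[K] (ι ⊕ ι → K)) a) = rgt a ∧
      rgt (adjL θ (swL : (ι ⊕ ι → K) ≃ₗ[K] (ι ⊕ ι → K)) a) = lft a := by
  have h0 : adjL θ (swL : (ι ⊕ ι → K) ≃ₗ[K] (ι ⊕ ι → K)) a = Sum.elim (rgt a) (lft a) := by
    apply hh_ext_right hθ
    intro c
    rw [hh_adjL' hθ, hh_sum, hh_sum]
    change hh θ (rgt c) (lft a) + hh θ (lft c) (rgt a) =
      hh θ (lft c) (rgt a) + hh θ (rgt c) (lft a)
    ring
  rw [h0]
  exact ⟨rfl, rfl⟩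

end lin

section gam

variable {Φ : HForm K E} {ι : Type} [Fintype ι] [DecidableEq ι] {m : ℕ} (F : Frame Φ ι m)
  {i : ℕ} (hi : i + 1 < m)

/-- **The linear group of two neighbouring blocks.** -/
def gam : (((ι → K) × (ι → K)) ≃ₗ[K] ((ι → K) × (ι → K))) →* (E ≃ₗ[K] E) :=
  (F.hyp2 i hi).gl.comp (cE K ι)

theorem gam_def (g : ((ι → K) × (ι → K)) ≃ₗ[K] ((ι → K) × (ι → K))) :
    gam F hi g = (F.hyp2 i hi).gl (cE K ι g) := rfl

theorem h2x (a : ι ⊕ ι → K) : (F.hyp2 i hi).x a = F.x (i + 1) (lft a) + F.x i (rgt a) := rfl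

theorem h2y (a : ι ⊕ ι → K) : (F.hyp2 i hi).y a = F.y (i + 1) (lft a) + F.y i (rgt a) := rfl

theorem x1_eq (a : ι → K) : F.x (i + 1) a = (F.hyp2 i hi).x (Sum.elim a 0) := by
  rw [h2x]
  change _ = F.x (i + 1) a + F.x i 0
  rw [map_zero, add_zero]

theorem x0_eq (a : ι → K) : F.x i a = (F.hyp2 i hi).x (Sum.elim 0 a) := by
  rw [h2x]
  change _ = F.x (i + 1) 0 + F.x i a
  rw [map_zero, zero_add]

theorem y1_eq (a : ι → K) : F.y (i + 1) a = (F.hyp2 i hi).y (Sum.elim a 0) := by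
  rw [h2y]
  change _ = F.y (i + 1) a + F.y i 0
  rw [map_zero, add_zero]

theorem y0_eq (a : ι → K) : F.y i a = (F.hyp2 i hi).y (Sum.elim 0 a) := by
  rw [h2y]
  change _ = F.y (i + 1) 0 + F.y i a
  rw [map_zero, zero_add]

theorem gam_x1 (g : ((ι → K) × (ι → K)) ≃ₗ[K] ((ι → K) × (ι → K))) (a : ι → K) :
    gam F hi g (F.x (i + 1) a) = F.x (i + 1) (g (a, 0)).1 + F.x i (g (a, 0)).2 := by
  rw [x1_eq F hi a, gam_def, Hyp.gl_x, h2x]
  rfl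

theorem gam_x0 (g : ((ι → K) × (ι → K)) ≃ₗ[K] ((ι → K) × (ι → K))) (a : ι → K) :
    gam F hi g (F.x i a) = F.x (i + 1) (g (0, a)).1 + F.x i (g (0, a)).2 := by
  rw [x0_eq F hi a, gam_def, Hyp.gl_x, h2x]
  rfl

theorem gam_w (g : ((ι → K) × (ι → K)) ≃ₗ[K] ((ι → K) × (ι → K))) {w : E}
    (h1 : (F.hyp2 i hi).px w = 0) (h2 : (F.hyp2 i hi).py w = 0) : gam F hi g w = w :=
  Hyp.gl_w _ _ h1 h2

theorem gam_mem (g : ((ι → K) × (ι → K)) ≃ₗ[K] ((ι → K) × (ι → K))) : gam F hi g ∈ IsoG Φ :=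
  Hyp.gl_mem _ _

theorem up_x1 (x : (ι → K) →ₗ[K] (ι → K)) (a : ι → K) :
    gam F hi (up x) (F.x (i + 1) a) = F.x (i + 1) a := by
  rw [gam_x1]
  change F.x (i + 1) (a + x 0) + F.x i 0 = _
  rw [map_zero, map_zero, add_zero, add_zero]

theorem up_x0 (x : (ι → K) →ₗ[K] (ι → K)) (a : ι → K) :
    gam F hi (up x) (F.x i a) = F.x i a + F.x (i + 1) (x a) := by
  rw [gam_x0]
  change F.x (i + 1) (0 + x a) + F.x i a = _
  rw [zero_add, add_comm]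

theorem up_y1 (x : (ι → K) →ₗ[K] (ι → K)) (a : ι → K) :
    gam F hi (up x) (F.y (i + 1) a) = F.y (i + 1) a - F.y i (ad Φ.θ Φ.θθ x a) := by
  obtain ⟨h1, h2⟩ := adjL_up Φ.θθ x (Sum.elim a (0 : ι → K))
  rw [y1_eq F hi a, gam_def, Hyp.gl_y, h2y, h1, h2, h2y]
  change F.y (i + 1) a + F.y i (0 - ad Φ.θ Φ.θθ x a) = F.y (i + 1) a + F.y i 0 - _
  rw [map_sub, map_zero, add_zero, zero_sub, sub_eq_add_neg]

theorem up_y0 (x : (ι → K) →ₗ[K] (ι → K)) (a : ι → K) :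
    gam F hi (up x) (F.y i a) = F.y i a := by
  obtain ⟨h1, h2⟩ := adjL_up Φ.θθ x (Sum.elim (0 : ι → K) a)
  rw [y0_eq F hi a, gam_def, Hyp.gl_y, h2y, h1, h2, h2y]
  change F.y (i + 1) 0 + F.y i (a - ad Φ.θ Φ.θθ x 0) = F.y (i + 1) 0 + F.y i a
  rw [map_zero (ad Φ.θ Φ.θθ x), sub_zero]

theorem lo_x1 (x : (ι → K) →ₗ[K] (ι → K)) (a : ι → K) :
    gam F hi (lo x) (F.x (i + 1) a) = F.x (i + 1) a + F.x i (x a) := by
  rw [gam_x1]
  change F.x (i + 1) a + F.x i (0 + x a) = _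
  rw [zero_add]

theorem lo_x0 (x : (ι → K) →ₗ[K] (ι → K)) (a : ι → K) :
    gam F hi (lo x) (F.x i a) = F.x i a := by
  rw [gam_x0]
  change F.x (i + 1) 0 + F.x i (a + x 0) = _
  rw [map_zero, map_zero, add_zero, zero_add]

theorem lo_y1 (x : (ι → K) →ₗ[K] (ι → K)) (a : ι → K) :
    gam F hi (lo x) (F.y (i + 1) a) = F.y (i + 1) a := by
  obtain ⟨h1, h2⟩ := adjL_lo Φ.θθ x (Sum.elim a (0 : ι → K))
  rw [y1_eq F hi a, gam_def, Hyp.gl_y, h2y, h1, h2, h2y]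
  change F.y (i + 1) (a - ad Φ.θ Φ.θθ x 0) + F.y i 0 = F.y (i + 1) a + F.y i 0
  rw [map_zero (ad Φ.θ Φ.θθ x), sub_zero]

theorem lo_y0 (x : (ι → K) →ₗ[K] (ι → K)) (a : ι → K) :
    gam F hi (lo x) (F.y i a) = F.y i a - F.y (i + 1) (ad Φ.θ Φ.θθ x a) := by
  obtain ⟨h1, h2⟩ := adjL_lo Φ.θθ x (Sum.elim (0 : ι → K) a)
  rw [y0_eq F hi a, gam_def, Hyp.gl_y, h2y, h1, h2, h2y]
  change F.y (i + 1) (0 - ad Φ.θ Φ.θθ x a) + F.y i a = F.y (i + 1) 0 + F.y i a - _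
  rw [map_sub, map_zero, zero_sub, zero_add]
  abel

theorem s_eq : gam F hi sw = F.s i hi := by
  rw [gam_def, cE_sw]
  rfl

theorem s_x1 (a : ι → K) : F.s i hi (F.x (i + 1) a) = F.x i a := by
  rw [← s_eq, gam_x1]
  change F.x (i + 1) 0 + F.x i a = _
  rw [map_zero, zero_add]

theorem s_x0 (a : ι → K) : F.s i hi (F.x i a) = F.x (i + 1) a := by
  rw [← s_eq, gam_x0]
  change F.x (i + 1) a + F.x i 0 = _
  rw [map_zero, add_zero]

theorem s_y1 (a : ι → K) : F.s i hi (F.y (i + 1) a) = F.y i a := by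
  obtain ⟨h1, h2⟩ := adjL_swL Φ.θθ (Sum.elim a (0 : ι → K))
  rw [y1_eq F hi a]
  unfold Frame.s
  rw [Hyp.gl_y, h2y, h1, h2]
  change F.y (i + 1) 0 + F.y i a = _
  rw [map_zero, zero_add]

theorem s_y0 (a : ι → K) : F.s i hi (F.y i a) = F.y (i + 1) a := by
  obtain ⟨h1, h2⟩ := adjL_swL Φ.θθ (Sum.elim (0 : ι → K) a)
  rw [y0_eq F hi a]
  unfold Frame.s
  rw [Hyp.gl_y, h2y, h1, h2]
  change F.y (i + 1) a + F.y i 0 = _
  rw [map_zero, add_zero]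

/-! coordinates -/

theorem lft_px (v : E) : lft ((F.hyp2 i hi).px v) = (F.hyp (i + 1) hi).px v := by
  apply hh_ext_left (θ := Φ.θ)
  intro b
  rw [Hyp.hh_px]
  have h1 := (F.hyp2 i hi).hh_px v (Sum.elim b 0)
  rw [hh_sum] at h1
  change hh Φ.θ _ b + hh Φ.θ _ 0 = _ at h1
  rw [hh_zero_right, add_zero, ← y1_eq F hi b] at h1
  exact h1

theorem rgt_px (v : E) : rgt ((F.hyp2 i hi).px v) = (F.hyp i (Nat.lt_of_succ_lt hi)).px v := by
  apply hh_ext_left (θ := Φ.θ)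
  intro b
  rw [Hyp.hh_px]
  have h1 := (F.hyp2 i hi).hh_px v (Sum.elim 0 b)
  rw [hh_sum] at h1
  change hh Φ.θ _ 0 + hh Φ.θ _ b = _ at h1
  rw [hh_zero_right, zero_add, ← y0_eq F hi b] at h1
  exact h1

theorem lft_py (v : E) : lft ((F.hyp2 i hi).py v) = (F.hyp (i + 1) hi).py v := by
  apply hh_ext_left (θ := Φ.θ)
  intro b
  rw [Hyp.hh_py]
  have h1 := (F.hyp2 i hi).hh_py v (Sum.elim b 0)
  rw [hh_sum] at h1
  change hh Φ.θ _ b + hh Φ.θ _ 0 = _ at h1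
  rw [hh_zero_right, add_zero, ← x1_eq F hi b] at h1
  exact h1

theorem rgt_py (v : E) : rgt ((F.hyp2 i hi).py v) = (F.hyp i (Nat.lt_of_succ_lt hi)).py v := by
  apply hh_ext_left (θ := Φ.θ)
  intro b
  rw [Hyp.hh_py]
  have h1 := (F.hyp2 i hi).hh_py v (Sum.elim 0 b)
  rw [hh_sum] at h1
  change hh Φ.θ _ 0 + hh Φ.θ _ b = _ at h1
  rw [hh_zero_right, zero_add, ← x0_eq F hi b] at h1
  exact h1

/-- the decomposition in two pairs -/
theorem eq_add2 (v : E) : v = F.x (i + 1) ((F.hyp (i + 1) hi).px v) +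
    F.x i ((F.hyp i (Nat.lt_of_succ_lt hi)).px v) + (F.hyp2 i hi).pw v +
    (F.y (i + 1) ((F.hyp (i + 1) hi).py v) + F.y i ((F.hyp i (Nat.lt_of_succ_lt hi)).py v)) := by
  conv_lhs => rw [(F.hyp2 i hi).eq_add v]
  rw [h2x, h2y, lft_px, rgt_px, lft_py, rgt_py]

/-- two isometries which agree on two pairs and on their complement -/
theorem ext2 {g g' : E ≃ₗ[K] E} (h1 : ∀ a, g (F.x (i + 1) a) = g' (F.x (i + 1) a))
    (h2 : ∀ a, g (F.x i a) = g' (F.x i a)) (h3 : ∀ a, g (F.y (i + 1) a) = g' (F.y (i + 1) a))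
    (h4 : ∀ a, g (F.y i a) = g' (F.y i a))
    (h5 : ∀ w, (F.hyp2 i hi).px w = 0 → (F.hyp2 i hi).py w = 0 → g w = g' w) : g = g' := by
  refine ext_hyp (F.hyp2 i hi) (fun a => ?_) (fun a => ?_) h5
  · rw [h2x, map_add, map_add, h1, h2]
  · rw [h2y, map_add, map_add, h3, h4]

/-- the vectors of the other pairs lie in the complement -/
theorem px2_x {j : ℕ} (hj : j < m) (hji : i + 2 ≤ j) (a : ι → K) :
    (F.hyp2 i hi).px (F.x j a) = 0 ∧ (F.hyp2 i hi).py (F.x j a) = 0 := by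
  obtain ⟨h1, h2, -, -⟩ := F.px_ne hi hj (by omega) a
  obtain ⟨h3, h4, -, -⟩ := F.px_ne (Nat.lt_of_succ_lt hi) hj (by omega) a
  exact ⟨ext_lr (by rw [lft_px, h1]; rfl) (by rw [rgt_px, h3]; rfl),
    ext_lr (by rw [lft_py, h2]; rfl) (by rw [rgt_py, h4]; rfl)⟩

theorem px2_y {j : ℕ} (hj : j < m) (hji : i + 2 ≤ j) (a : ι → K) :
    (F.hyp2 i hi).px (F.y j a) = 0 ∧ (F.hyp2 i hi).py (F.y j a) = 0 := by
  obtain ⟨-, -, h1, h2⟩ := F.px_ne hi hj (by omega) a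
  obtain ⟨-, -, h3, h4⟩ := F.px_ne (Nat.lt_of_succ_lt hi) hj (by omega) a
  exact ⟨ext_lr (by rw [lft_px, h1]; rfl) (by rw [rgt_px, h3]; rfl),
    ext_lr (by rw [lft_py, h2]; rfl) (by rw [rgt_py, h4]; rfl)⟩

theorem gam_mem_H (g : ((ι → K) × (ι → K)) ≃ₗ[K] ((ι → K) × (ι → K))) :
    gam F hi g ∈ F.H (i + 2) := by
  refine ⟨gam_mem F hi g, fun j hj hjm => ⟨fun a => ?_, fun a => ?_⟩⟩
  · obtain ⟨h1, h2⟩ := px2_x F hi hjm hj a
    exact gam_w F hi g h1 h2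
  · obtain ⟨h1, h2⟩ := px2_y F hi hjm hj a
    exact gam_w F hi g h1 h2

theorem w0 {w : E} (h1 : (F.hyp2 i hi).px w = 0) (h2 : (F.hyp2 i hi).py w = 0) :
    (F.hyp i (Nat.lt_of_succ_lt hi)).px w = 0 ∧ (F.hyp i (Nat.lt_of_succ_lt hi)).py w = 0 ∧
      (F.hyp (i + 1) hi).px w = 0 ∧ (F.hyp (i + 1) hi).py w = 0 := by
  refine ⟨?_, ?_, ?_, ?_⟩
  · rw [← rgt_px F hi, h1]; rfl
  · rw [← rgt_py F hi, h2]; rfl
  · rw [← lft_px F hi, h1]; rfl
  · rw [← lft_py F hi, h2]; rfl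

theorem gam_D1 (g : (ι → K) ≃ₗ[K] (ι → K)) : gam F hi (D1 g) = (F.hyp (i + 1) hi).gl g := by
  refine ext2 F hi (fun a => ?_) (fun a => ?_) (fun a => ?_) (fun a => ?_) (fun w h1 h2 => ?_)
  · rw [gam_x1, show F.x (i + 1) a = (F.hyp (i + 1) hi).x a from rfl, Hyp.gl_x]
    change F.x (i + 1) (g a) + F.x i 0 = F.x (i + 1) (g a)
    rw [map_zero, add_zero]
  · obtain ⟨h1, h2, -, -⟩ := F.px_ne hi (Nat.lt_of_succ_lt hi) (by omega) a
    rw [gam_x0, Hyp.gl_w _ _ h1 h2]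
    change F.x (i + 1) (g 0) + F.x i a = F.x i a
    rw [map_zero, map_zero, zero_add]
  · obtain ⟨h1, h2⟩ := adjL_D1 Φ.θθ g (Sum.elim a (0 : ι → K))
    rw [show F.y (i + 1) a = (F.hyp (i + 1) hi).y a from rfl, Hyp.gl_y]
    change gam F hi (D1 g) (F.y (i + 1) a) = F.y (i + 1) (adjL Φ.θ g a)
    rw [y1_eq F hi a, gam_def, Hyp.gl_y, h2y, h1, h2]
    change F.y (i + 1) (adjL Φ.θ g a) + F.y i 0 = F.y (i + 1) (adjL Φ.θ g a)
    rw [map_zero, add_zero]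
  · obtain ⟨-, -, h1, h2⟩ := F.px_ne hi (Nat.lt_of_succ_lt hi) (by omega) a
    rw [Hyp.gl_w _ _ h1 h2]
    obtain ⟨h1, h2⟩ := adjL_D1 Φ.θθ g (Sum.elim (0 : ι → K) a)
    rw [y0_eq F hi a, gam_def, Hyp.gl_y, h2y, h1, h2, h2y]
    change F.y (i + 1) (adjL Φ.θ g 0) + F.y i a = F.y (i + 1) 0 + F.y i a
    rw [map_zero (adjL Φ.θ g)]
  · obtain ⟨h3, h4, h5, h6⟩ := w0 F hi h1 h2
    rw [gam_w F hi _ h1 h2, Hyp.gl_w _ _ h5 h6]

theorem gam_D2 (g : (ι → K) ≃ₗ[K] (ι → K)) :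
    gam F hi (D2 g) = (F.hyp i (Nat.lt_of_succ_lt hi)).gl g := by
  refine ext2 F hi (fun a => ?_) (fun a => ?_) (fun a => ?_) (fun a => ?_) (fun w h1 h2 => ?_)
  · obtain ⟨h1, h2, -, -⟩ := F.px_ne (Nat.lt_of_succ_lt hi) hi (by omega) a
    rw [gam_x1, Hyp.gl_w _ _ h1 h2]
    change F.x (i + 1) a + F.x i (g 0) = F.x (i + 1) a
    rw [map_zero, map_zero, add_zero]
  · rw [gam_x0, show F.x i a = (F.hyp i (Nat.lt_of_succ_lt hi)).x a from rfl, Hyp.gl_x]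
    change F.x (i + 1) 0 + F.x i (g a) = F.x i (g a)
    rw [map_zero, zero_add]
  · obtain ⟨-, -, h1, h2⟩ := F.px_ne (Nat.lt_of_succ_lt hi) hi (by omega) a
    rw [Hyp.gl_w _ _ h1 h2]
    obtain ⟨h1, h2⟩ := adjL_D2 Φ.θθ g (Sum.elim a (0 : ι → K))
    rw [y1_eq F hi a, gam_def, Hyp.gl_y, h2y, h1, h2, h2y]
    change F.y (i + 1) a + F.y i (adjL Φ.θ g 0) = F.y (i + 1) a + F.y i 0
    rw [map_zero (adjL Φ.θ g)]
  · obtain ⟨h1, h2⟩ := adjL_D2 Φ.θθ g (Sum.elim (0 : ι → K) a)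
    rw [show F.y i a = (F.hyp i (Nat.lt_of_succ_lt hi)).y a from rfl, Hyp.gl_y]
    change gam F hi (D2 g) (F.y i a) = F.y i (adjL Φ.θ g a)
    rw [y0_eq F hi a, gam_def, Hyp.gl_y, h2y, h1, h2]
    change F.y (i + 1) 0 + F.y i (adjL Φ.θ g a) = F.y i (adjL Φ.θ g a)
    rw [map_zero, zero_add]
  · obtain ⟨h3, h4, h5, h6⟩ := w0 F hi h1 h2
    rw [gam_w F hi _ h1 h2, Hyp.gl_w _ _ h3 h4]

theorem gam_injective : Function.Injective (gam F hi) := by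
  intro g g' h
  have h1 := (F.hyp2 i hi).gl_injective h
  apply LinearEquiv.ext
  intro v
  have h2 := LinearEquiv.congr_fun h1 (Sum.elim v.1 v.2)
  have h3 := congrArg (fun a => (lft a, rgt a)) h2
  exact h3

end gam

end Vale.Agent.P180.H6.Pd
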