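import Vale.Agent.P180.H6.TowA

/-!
P180 (helper6): the two cases for a cuspidal representation of the general linear group, uniformly
in the level of the frame.
-/

set_option linter.all false

namespace Vale.Agent.P180.H6.TowF

open Module Vale.Agent.P180 Vale.Agent.P180.R2.H854 Vale.Agent.P180.R2.H799
open Vale.Agent.P180.R2.H799.BN
open Vale.Agent.P180.H393.Fm Vale.Agent.P180.H393.Fm.Frame
open Vale.Agent.P180.H19.Atwo
open Vale.Agent.P180.H568.XT (o o_mul)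

universe u

section adj

variable {K : Type} [Field K] {ι : Type} [Fintype ι] [DecidableEq ι] {θ : K →+* K}

/-- the inverse adjoint as an automorphism of the general linear group -/
def adjE (hθ : ∀ c, θ (θ c) = c) : ((ι → K) ≃ₗ[K] (ι → K)) →* ((ι → K) ≃ₗ[K] (ι → K)) where
  toFun g := LinearEquiv.ofLinear (adjL θ g) (adjL θ g⁻¹)
    (by
      ext1 b
      apply LinearMap.ext
      intro c
      change adjL θ g (adjL θ g⁻¹ _) = _
      rw [← adjL_mul hθ, mul_inv_cancel, adjL_one hθ]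
      rfl)
    (by
      ext1 b
      apply LinearMap.ext
      intro c
      change adjL θ g⁻¹ (adjL θ g _) = _
      rw [← adjL_mul hθ, inv_mul_cancel, adjL_one hθ]
      rfl)
  map_one' := by
    apply LinearEquiv.ext
    intro b
    exact adjL_one hθ b
  map_mul' g h := by
    apply LinearEquiv.ext
    intro b
    exact adjL_mul hθ g h b

theorem adjE_apply (hθ : ∀ c, θ (θ c) = c) (g : (ι → K) ≃ₗ[K] (ι → K)) (b : ι → K) :
    adjE hθ g b = adjL θ g b := rfl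

theorem adjL_adjE (hθ : ∀ c, θ (θ c) = c) (g : (ι → K) ≃ₗ[K] (ι → K)) (b : ι → K) :
    adjL θ (adjE hθ g) b = g b := by
  apply hh_ext_right hθ
  intro a
  rw [hh_adjL' hθ, ← map_inv, adjE_apply, hh_symm hθ b, hh_adjL' hθ, inv_inv, ← hh_symm hθ]

theorem adjE_adjE (hθ : ∀ c, θ (θ c) = c) (g : (ι → K) ≃ₗ[K] (ι → K)) :
    adjE hθ (adjE hθ g) = g := by
  apply LinearEquiv.ext
  intro b
  rw [adjE_apply, adjL_adjE]

end adj

section Fra

variable {K E : Type} [Field K] [AddCommGroup E] [Module K E] {Φ : HForm K E} {ι : Type}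
  [Fintype ι] [DecidableEq ι]

/-- the swap and the general linear group -/
theorem tt_gl (P : Hyp Φ ι) (g : (ι → K) ≃ₗ[K] (ι → K)) :
    P.tt * P.gl g = P.gl (adjE Φ.θθ g) * P.tt := by
  refine ext_hyp P (fun a => ?_) (fun a => ?_) (fun v h1 h2 => ?_)
  · change P.tt (P.gl g (P.x a)) = P.gl (adjE Φ.θθ g) (P.tt (P.x a))
    rw [P.gl_x, P.tt_x, P.tt_x, P.gl_y, adjL_adjE]
  · change P.tt (P.gl g (P.y a)) = P.gl (adjE Φ.θθ g) (P.tt (P.y a))
    rw [P.gl_y, P.tt_y, P.tt_y, map_smul, P.gl_x, adjE_apply]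
  · change P.tt (P.gl g v) = P.gl (adjE Φ.θθ g) (P.tt v)
    rw [P.gl_w g h1 h2, P.tt_w h1 h2, P.gl_w _ h1 h2]

variable {k : Type u} [Field k] [Finite (E ≃ₗ[K] E)]

omit [Finite (E ≃ₗ[K] E)] in
theorem tt_mp (P : Hyp Φ ι) (x : MonoidAlgebra k ((ι → K) ≃ₗ[K] (ι → K))) :
    o k P.tt * mp P.gl x = mp P.gl (mp (adjE Φ.θθ) x) * o k P.tt := by
  have h1 : mp P.gl (mp (adjE Φ.θθ) x) = mp (P.gl.comp (adjE Φ.θθ)) x := by
    induction x using MonoidAlgebra.induction_linear with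
    | zero => simp only [map_zero]
    | add x y hx hy => rw [map_add, map_add, map_add, hx, hy]
    | single g r => rw [mp_single, mp_single, mp_single]; rfl
  rw [h1]
  symm
  refine mp_rel (fun g => ?_) x
  change o k ((P.gl.comp (adjE Φ.θθ)) g) * o k P.tt = o k P.tt * o k (P.gl g)
  rw [o_mul, o_mul, tt_gl]
  rfl

/-- the middle factor -/
theorem mid_eq (P : Hyp Φ ι) (ε : MonoidAlgebra k ((ι → K) ≃ₗ[K] (ι → K)))
    (z : (ι → K) ≃ₗ[K] (ι → K)) :
    mp P.gl ε * o k (P.tt * P.gl z) * mp P.gl ε =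
      mp P.gl (ε * mp (adjE Φ.θθ) (MonoidAlgebra.single z 1 * ε)) * o k P.tt := by
  have h1 : o k (P.tt * P.gl z) = o k P.tt * mp P.gl (MonoidAlgebra.single z (1 : k)) := by
    rw [mp_single, ← o_mul]
  calc mp P.gl ε * o k (P.tt * P.gl z) * mp P.gl ε
      = mp P.gl ε * (o k P.tt * mp P.gl (MonoidAlgebra.single z 1 * ε)) := by
        rw [h1, map_mul]; simp only [mul_assoc]
    _ = _ := by rw [tt_mp, map_mul (mp P.gl) ε]; simp only [mul_assoc]

theorem mid_eq' (P : Hyp Φ ι) (ε : MonoidAlgebra k ((ι → K) ≃ₗ[K] (ι → K)))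
    (z : (ι → K) ≃ₗ[K] (ι → K)) :
    mp P.gl ε * o k (P.gl z) * o k P.tt * mp P.gl ε =
      mp P.gl (ε * mp (adjE Φ.θθ) (MonoidAlgebra.single (adjE Φ.θθ z) 1 * ε)) * o k P.tt := by
  rw [← mid_eq, tt_gl, adjE_adjE, ← o_mul]
  simp only [mul_assoc]

theorem mp_inj {G H : Type} [Group G] [Group H] {f : H →* G} (hf : Function.Injective f) :
    Function.Injective (mp f : MonoidAlgebra k H → MonoidAlgebra k G) :=
  MonoidAlgebra.mapDomain_injective hf

theorem o_cancel {G : Type} [Group G] {x : MonoidAlgebra k G} {g : G} (h : x * o k g = 0) :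
    x = 0 := by
  have h1 : x * o k g * o k g⁻¹ = x := by
    rw [mul_assoc, o_mul, mul_inv_cancel]
    exact mul_one x
  rw [← h1, h, zero_mul]

theorem mid_zero_iff (P : Hyp Φ ι) (ε : MonoidAlgebra k ((ι → K) ≃ₗ[K] (ι → K)))
    (z : (ι → K) ≃ₗ[K] (ι → K)) :
    mp P.gl ε * o k (P.tt * P.gl z) * mp P.gl ε = 0 ↔
      ε * mp (adjE Φ.θθ) (MonoidAlgebra.single z 1 * ε) = 0 := by
  rw [mid_eq]
  constructor
  · intro h
    apply mp_inj (k := k) P.gl_injective
    rw [o_cancel h, map_zero]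
  · intro h
    rw [h, map_zero, zero_mul]

/-- **The two cases.** -/
theorem split {m : ℕ} (F : Frame Φ ι m) (ε : MonoidAlgebra k ((ι → K) ≃ₗ[K] (ι → K))) :
    (∃ g0, ∀ i (hi : i < m),
      mp (F.hyp i hi).gl ε * o k (F.tau g0 i) * mp (F.hyp i hi).gl ε ≠ 0) ∨
    (∀ i (hi : i < m),
      (∀ z, mp (F.hyp i hi).gl ε * o k ((F.hyp i hi).tt * (F.hyp i hi).gl z) *
        mp (F.hyp i hi).gl ε = 0) ∧
      ∀ z, mp (F.hyp i hi).gl ε * o k ((F.hyp i hi).gl z) * o k (F.hyp i hi).tt *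
        mp (F.hyp i hi).gl ε = 0) := by
  by_cases h : ∃ z : (ι → K) ≃ₗ[K] (ι → K),
      ε * mp (adjE Φ.θθ) (MonoidAlgebra.single z 1 * ε) ≠ 0
  · left
    obtain ⟨z, hz⟩ := h
    refine ⟨z, fun i hi h0 => hz ?_⟩
    rw [F.tau_eq z hi] at h0
    exact (mid_zero_iff (F.hyp i hi) ε z).mp h0
  · right
    push Not at h
    intro i hi
    refine ⟨fun z => (mid_zero_iff (F.hyp i hi) ε z).mpr (h z), fun z => ?_⟩
    rw [mid_eq', h, map_zero, zero_mul]

/-- the square of the swap -/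
theorem exists_tt_sq (P : Hyp Φ ι) : ∃ z, P.tt * P.tt = P.gl z := by
  have hε : Φ.ε ≠ 0 := fun h0 => by
    have := Φ.εε
    rw [h0, zero_mul] at this
    exact zero_ne_one this
  refine ⟨LinearEquiv.smulOfNeZero K (ι → K) Φ.ε hε, ?_⟩
  refine ext_hyp P (fun a => ?_) (fun a => ?_) (fun v h1 h2 => ?_)
  · change P.tt (P.tt (P.x a)) = P.gl _ (P.x a)
    rw [P.tt_x, P.tt_y, P.gl_x]
    change Φ.ε • P.x a = P.x (Φ.ε • a)
    rw [map_smul]
  · change P.tt (P.tt (P.y a)) = P.gl _ (P.y a)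
    rw [P.tt_y, map_smul, P.tt_x, P.gl_y, ← map_smul]
    congr 1
    apply hh_ext_right Φ.θθ
    intro c
    rw [hh_adjL' Φ.θθ]
    have h3 : ((LinearEquiv.smulOfNeZero K (ι → K) Φ.ε hε)⁻¹ : (ι → K) ≃ₗ[K] (ι → K)) c =
        Φ.ε⁻¹ • c := by
      apply (LinearEquiv.smulOfNeZero K (ι → K) Φ.ε hε).injective
      have e1 : (LinearEquiv.smulOfNeZero K (ι → K) Φ.ε hε)
          ((LinearEquiv.smulOfNeZero K (ι → K) Φ.ε hε)⁻¹ c) = c :=
        LinearEquiv.apply_symm_apply _ c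
      rw [e1]
      change c = Φ.ε • (Φ.ε⁻¹ • c)
      rw [smul_smul, mul_inv_cancel₀ hε, one_smul]
    rw [h3, hh_smul_left, hh_smul_right]
    congr 1
    exact (eq_inv_of_mul_eq_one_right Φ.εε)
  · change P.tt (P.tt v) = P.gl _ v
    rw [P.tt_w h1 h2, P.tt_w h1 h2, P.gl_w _ h1 h2]

end Fra

end Vale.Agent.P180.H6.TowF
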