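import Vale.Agent.P180.H6.TowB
import Vale.Agent.P180.H386.PosH

/-!
P180 (helper6): the tower of a frame, from the elements `X i`.
-/

set_option linter.all false

namespace Vale.Agent.P180.H6.TowF

open Module Vale.Agent.P180 Vale.Agent.P180.R2.H854 Vale.Agent.P180.R2.H799
open Vale.Agent.P180.R2.H799.BN
open Vale.Agent.P180.H393.Fm Vale.Agent.P180.H393.Fm.Frame
open Vale.Agent.P180.H19.Atwo
open Vale.Agent.P180.H568.XT (o o_mul)
open Vale.Agent.P180.H354.Fm Vale.Agent.P180.H386.Fm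
open Vale.Agent.P180.H897 (Tow)

universe u

variable {k : Type u} [Field k] [CharZero k] {K E : Type} [Field K] [Finite K] [AddCommGroup E]
  [Module K E] [FiniteDimensional K E] [Finite (E ≃ₗ[K] E)] {Φ : HForm K E} {ι : Type} [Fintype ι]
  [DecidableEq ι] [Nonempty ι] [Finite ((ι → K) ≃ₗ[K] (ι → K))] {m : ℕ}
  (F : Frame Φ ι m) {ε : MonoidAlgebra k ((ι → K) ≃ₗ[K] (ι → K))}

/-- **The tower of a frame**, given the elements `X i`. -/
theorem tow_of (hT : Φ.Tr)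
    (hmax : ∀ S : Submodule K E, S ≤ WF F 0 → (∀ x ∈ S, ∀ y ∈ S, Φ.B x y = 0) →
      finrank K S ≠ Fintype.card ι)
    (hε : ε * ε = ε) (hne : ε ≠ 0) (hp : ∀ z, ∃ c : k, ε * z * ε = c • ε)
    (hc : ∀ A1 : Submodule K (ι → K), A1 ≠ ⊥ → A1 ≠ ⊤ → ε * av k (Rad A1) = 0)
    {X : ℕ → MonoidAlgebra k (E ≃ₗ[K] E)} {c : k} (hc0 : c ≠ 0)
    (hXm : ∀ i < m, X i ∈ SubAlg k (F.H (i + 1)))
    (hXc : ∀ i < m, ∀ x ∈ SubAlg k (F.H i), X i * x = x * X i)
    (hEX : ∀ i < m, F.EE ε i * X i = X i) (hXE : ∀ i < m, X i * F.EE ε i = X i)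
    (hX : ∀ i (hi : i < m), ∀ h, ∃ c : k, F.EE ε i *
      MonoidAlgebra.single ((F.hyp i hi).tt * (F.hyp i hi).gl h) 1 * F.EE ε i = c • X i)
    (hinv : ∀ i < m, ∃ y, y * X i = F.EE ε i)
    (hdiag : ∀ i < m, ∃ L : Finset k, Polynomial.aeval (X i)
      (∏ l ∈ L, (Polynomial.X - Polynomial.C l)) = 0)
    (hTXT : ∀ i, i + 1 < m → F.TT ε i * X i * F.TT ε i = c • (X (i + 1) * F.EE ε i)) :
    ∃ a b : ℕ → k, Tow k (fun i => SubAlg k (F.H i)) m (F.EE ε) X (F.TT ε) a b (fun _ => c) := by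
  classical
  letI : Fintype ((ι → K) ≃ₗ[K] (ι → K)) := Fintype.ofFinite _
  choose φ hφ using hp
  obtain ⟨hE, hcc, hw⟩ := Eps.mk' hε hne hφ hc
  haveI : Finite ((ι → K) →ₗ[K] (ι → K)) :=
    Finite.of_injective (fun f : (ι → K) →ₗ[K] (ι → K) => (f : (ι → K) → (ι → K)))
      DFunLike.coe_injective
  have hN : (Nat.card ((ι → K) →ₗ[K] (ι → K)) : k) ≠ 0 := by
    have : Nat.card ((ι → K) →ₗ[K] (ι → K)) ≠ 0 := Nat.card_pos.ne'
    exact_mod_cast this
  have hXc' : ∀ i < m, ∀ g ∈ F.H i,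
      X i * MonoidAlgebra.single g 1 = MonoidAlgebra.single g 1 * X i :=
    fun i hi g hg => hXc i hi _ (single_mem_SubAlg hg 1)
  have hp' : ∀ h, ∃ c : k, ε * MonoidAlgebra.single h 1 * ε = c • ε :=
    fun h => ⟨_, hφ _⟩
  refine ⟨fun _ => (Nat.card ((ι → K) →ₗ[K] (ι → K)) : k)⁻¹ *
    (φ (MonoidAlgebra.single (LinearEquiv.neg K : (ι → K) ≃ₗ[K] (ι → K)) 1) * (ε.coeff 1)⁻¹),
    fun _ => (Nat.card ((ι → K) →ₗ[K] (ι → K)) : k)⁻¹, ?_⟩
  exact
    { mono := fun i hi => SubAlg_mono (F.H_mono (Nat.le_succ i))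
      E_mem := fun i hi => EE_mem F hi
      X_mem := hXm
      T_mem := fun i hi => TT_mem F hi
      E_comm := fun i hi => EE_comm F hi
      X_comm := hXc
      T_comm := fun i hi => TT_comm F hi
      EE := fun i hi => EE_idem F hε hi
      EX := hEX
      XE := hXE
      X_inv := hinv
      X_diag := hdiag
      ET := fun i hi => by
        obtain ⟨h1, h2, h3, h4, h5, h6⟩ := TT_rel F hE hi
        rw [mul_assoc, h4, h2]
      TE := fun i hi => by
        obtain ⟨h1, h2, h3, h4, h5, h6⟩ := TT_rel F hE hi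
        rw [← mul_assoc, h3, h5]
      TT := fun i hi => by
        obtain ⟨h1, h2, h3, h4, h5, h6⟩ := TT_rel F hE hi
        exact h6
      a_ne := fun i hi => mul_ne_zero (inv_ne_zero hN) (mul_ne_zero hw hcc)
      b_ne := fun i hi => inv_ne_zero hN
      c_ne := fun i hi => hc0
      TXT := hTXT
      gen0 := fun h0 => gen0 F hT hε hp' hc hX hXc' h0 hmax
      gen := fun i hi => gen F hT hε hp' hc hX hXc' hi }

end Vale.Agent.P180.H6.TowF
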