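import Vale.Agent.P180.H6.TowM
import Vale.Agent.P180.H568.XI
import Vale.Agent.P180.H19.Cus

/-!
P180 (helper6): the towers of the frames of a space with a form.
-/

set_option linter.all false

namespace Vale.Agent.P180.H6.TowF

open Module Vale.Agent.P180 Vale.Agent.P180.R2.H854 Vale.Agent.P180.R2.H799
open Vale.Agent.P180.R2.H799.BN
open Vale.Agent.P180.H393.Fm Vale.Agent.P180.H393.Fm.Frame
open Vale.Agent.P180.H19.Atwo
open Vale.Agent.P180.H568 (glPSH)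
open Vale.Agent.P180.H568.XT
open Vale.Agent.P180.H354.Fm Vale.Agent.P180.H386.Fm
open Vale.Agent.P180.H897 (Tow)
open Vale.Agent.P180.H393 (Om)

universe u

theorem exists_Qbar (k : Type u) [Field k] [IsAlgClosed k] [CharZero k] :
    Nonempty (AlgebraicClosure ℚ →+* k) := by
  haveI : Algebra.IsAlgebraic ℚ (AlgebraicClosure ℚ) := by
    have h := AlgebraicClosure.isAlgebraic ℚ
    convert h
    · rfl
    · exact Subsingleton.elim _ _
  let j : AlgebraicClosure ℚ →ₐ[ℚ] k := IsAlgClosed.lift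
  exact ⟨j.toRingHom⟩

/-- **The tower of a primitive `ρ` and a maximal frame of its degree.** -/
theorem exists_tow (k : Type u) [Field k] [IsAlgClosed k] [CharZero k] {K E : Type} [Field K]
    [Finite K] [AddCommGroup E] [Module K E] [FiniteDimensional K E] [Finite (E ≃ₗ[K] E)]
    [DecidableEq (Om k K)] {Φ : HForm K E} (hT : Φ.Tr) (ρ : Om k K) (hρ : (glPSH k K).Prim ρ)
    (hρ0 : 0 < ρ.deg) (m : ℕ) (F : Frame Φ (Fin ρ.deg) m)
    (hmax : ∀ S : Submodule K E, S ≤ WF F 0 → (∀ u ∈ S, ∀ v ∈ S, Φ.B u v = 0) →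
      finrank K S ≠ Fintype.card (Fin ρ.deg)) :
    ∃ (ε : MonoidAlgebra k ((Fin ρ.deg → K) ≃ₗ[K] (Fin ρ.deg → K)))
      (X T : ℕ → MonoidAlgebra k (E ≃ₗ[K] E)) (a b c : ℕ → k), ε * ε = ε ∧
      (∀ w : Om k K, w.deg = ρ.deg →
        H393.ev (H393.X w (Fin ρ.deg → K)) ε = if w = ρ then 1 else 0) ∧
      Tow k (fun i => SubAlg k (F.H i)) m (F.EE ε) X T a b c := by
  haveI : Nonempty (Fin ρ.deg) := ⟨⟨0, hρ0⟩⟩
  obtain ⟨σ, hσ⟩ := exists_isSg_algebraicClosure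
  obtain ⟨j⟩ := exists_Qbar k
  obtain ⟨ε0, e1, e2, e3, e4, e5, e6, e7, e8⟩ := exists_eps_om (ι := Fin ρ.deg) hσ j ρ
    (Fintype.card_fin _)
  have hc := cusp_of_prim ρ hρ (Fintype.card_fin _) e6 e8
  have e8' : ∀ w : Om k K, w.deg = ρ.deg →
      H393.ev (H393.X w (Fin ρ.deg → K)) (mc _ j ε0) = if w = ρ then 1 else 0 :=
    fun w hw => e8 w (by rw [hw, Fintype.card_fin])
  rcases split F (mc _ j ε0) with ⟨g0, hsd⟩ | hn
  · have hXm : ∀ i < m, F.XX (mc _ j ε0) g0 i ∈ SubAlg k (F.H (i + 1)) :=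
      fun i hi => XX_mem F g0 hi
    have hXc : ∀ i < m, ∀ x ∈ SubAlg k (F.H i),
        F.XX (mc _ j ε0) g0 i * x = x * F.XX (mc _ j ε0) g0 i := fun i hi => XX_comm F g0 hi
    have hEX : ∀ i < m, F.EE (mc _ j ε0) i * F.XX (mc _ j ε0) g0 i = F.XX (mc _ j ε0) g0 i :=
      fun i hi => E_X (EE_idem F e6 hi)
    have hXE : ∀ i < m, F.XX (mc _ j ε0) g0 i * F.EE (mc _ j ε0) i = F.XX (mc _ j ε0) g0 i :=
      fun i hi => X_E (EE_idem F e6 hi)
    have hX := fun i (hi : i < m) => hX_sd F e6 e5 hi (hsd i hi)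
    have hTXT : ∀ i, i + 1 < m → F.TT (mc _ j ε0) i * F.XX (mc _ j ε0) g0 i *
        F.TT (mc _ j ε0) i = (1 : k) • (F.XX (mc _ j ε0) g0 (i + 1) * F.EE (mc _ j ε0) i) :=
      fun i hi => txt_frame_sd F e6 hi
    have hinv := X_inv_all F hT hmax e6 e7 e5 hc hXm hXc hEX hXE hX hTXT
      (fun i hi => hw_sd F e6 e5 hi (hsd i hi))
    obtain ⟨a, b, h⟩ := tow_of F hT hmax e6 e7 e5 hc one_ne_zero hXm hXc hEX hXE hX hinv
      (fun i hi => X_diag_frame_sd j F hσ e1 e4 e2 hi (hsd i hi)) hTXT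
    exact ⟨_, _, _, a, b, _, e6, e8', h⟩
  · have hN : (Nat.card ((Fin ρ.deg → K) →ₗ[K] (Fin ρ.deg → K)) : k) ≠ 0 := by
      haveI : Finite ((Fin ρ.deg → K) →ₗ[K] (Fin ρ.deg → K)) :=
        Finite.of_injective (fun f : (Fin ρ.deg → K) →ₗ[K] (Fin ρ.deg → K) =>
          (f : (Fin ρ.deg → K) → (Fin ρ.deg → K))) DFunLike.coe_injective
      have : Nat.card ((Fin ρ.deg → K) →ₗ[K] (Fin ρ.deg → K)) ≠ 0 := Nat.card_pos.ne'
      exact_mod_cast this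
    have hXm : ∀ i < m, F.XN (mc _ j ε0) i ∈ SubAlg k (F.H (i + 1)) := fun i hi => XN_mem F hi
    have hXc : ∀ i < m, ∀ x ∈ SubAlg k (F.H i),
        F.XN (mc _ j ε0) i * x = x * F.XN (mc _ j ε0) i := fun i hi => XN_comm F hi
    have hEX : ∀ i < m, F.EE (mc _ j ε0) i * F.XN (mc _ j ε0) i = F.XN (mc _ j ε0) i :=
      fun i hi => by rw [F.XN_eq _ hi]; exact E_X (EE_idem F e6 hi)
    have hXE : ∀ i < m, F.XN (mc _ j ε0) i * F.EE (mc _ j ε0) i = F.XN (mc _ j ε0) i :=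
      fun i hi => by rw [F.XN_eq _ hi]; exact X_E (EE_idem F e6 hi)
    have hX := fun i (hi : i < m) => hX_nsd F hi (hn i hi).1
    have hTXT : ∀ i, i + 1 < m → F.TT (mc _ j ε0) i * F.XN (mc _ j ε0) i *
        F.TT (mc _ j ε0) i = (Nat.card ((Fin ρ.deg → K) →ₗ[K] (Fin ρ.deg → K)) : k) •
          (F.XN (mc _ j ε0) (i + 1) * F.EE (mc _ j ε0) i) :=
      fun i hi => txt_frame_nsd F e6 hc hi (hn i (Nat.lt_of_succ_lt hi)).2
    have hinv := X_inv_all F hT hmax e6 e7 e5 hc hXm hXc hEX hXE hX hTXT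
      (fun i hi => hw_nsd F hi)
    obtain ⟨a, b, h⟩ := tow_of F hT hmax e6 e7 e5 hc hN hXm hXc hEX hXE hX hinv
      (fun i hi => X_diag_frame_nsd j F hσ e2 hi) hTXT
    exact ⟨_, _, _, a, b, _, e6, e8', h⟩

end Vale.Agent.P180.H6.TowF
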