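import Vale.Agent.P180.H6.TowC
import Vale.Agent.P180.H568.XG

/-!
P180 (helper6): the elements `X i` of a frame are invertible in their corners.
-/

set_option linter.all false

namespace Vale.Agent.P180.H6.TowF

open Module Vale.Agent.P180 Vale.Agent.P180.R2.H854 Vale.Agent.P180.R2.H799
open Vale.Agent.P180.R2.H799.BN
open Vale.Agent.P180.H393.Fm Vale.Agent.P180.H393.Fm.Frame
open Vale.Agent.P180.H19.Atwo
open Vale.Agent.P180.H568.XT (o o_mul X_inv_zero X_inv_succ)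
open Vale.Agent.P180.H354.Fm Vale.Agent.P180.H386.Fm

universe u

section ne

variable {K E : Type} [Field K] [AddCommGroup E] [Module K E] {Φ : HForm K E} {ι : Type}
  [Fintype ι] [DecidableEq ι] {m : ℕ} (F : Frame Φ ι m) [Finite (E ≃ₗ[K] E)]

/-- a nontrivial element of the opposite radical moves the isotropic subspace -/
theorem Um_ne {i : ℕ} (hi : i < m) {n : E ≃ₗ[K] E} (hn : n ∈ F.Um i hi) (hn1 : n ≠ 1) :
    (LinearMap.range (F.x i)).map (n : E →ₗ[K] E) ≠ LinearMap.range (F.x i) := by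
  intro hmap
  apply hn1
  set P := F.hyp i hi with hP
  have hn' : P.tt⁻¹ * n * P.tt ∈ F.U i hi := mem_conjS.mp hn
  obtain ⟨⟨h1, h2, h3⟩, -⟩ := hn'
  have hnI : n ∈ IsoG Φ := by
    have h4 := (IsoG Φ).mul_mem ((IsoG Φ).mul_mem P.tt_mem h1) ((IsoG Φ).inv_mem P.tt_mem)
    have e : P.tt * (P.tt⁻¹ * n * P.tt) * P.tt⁻¹ = n := by group
    rwa [e] at h4
  have hinv : ∀ v, P.tt (P.tt⁻¹ v) = v := fun v => LinearEquiv.apply_symm_apply P.tt v
  have hinv' : ∀ v, P.tt⁻¹ (P.tt v) = v := fun v => LinearEquiv.symm_apply_apply P.tt v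
  -- `n` fixes `y`
  have hy : ∀ a, n (P.y a) = P.y a := by
    intro a
    have h4 : P.tt⁻¹ (n (P.tt (P.x a))) = P.x a := h2 a
    rw [P.tt_x] at h4
    have h5 := congrArg P.tt h4
    rw [hinv, P.tt_x] at h5
    exact h5
  -- `n` fixes `x`
  have hx : ∀ a, n (P.x a) = P.x a := by
    intro a
    have h4 : n (P.x a) ∈ LinearMap.range (F.x i) := by
      rw [← hmap]
      exact ⟨P.x a, ⟨a, rfl⟩, rfl⟩
    obtain ⟨b, hb⟩ := h4
    have hb' : P.x b = n (P.x a) := hb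
    have h5 : b = a := by
      apply hh_ext_left (θ := Φ.θ)
      intro c
      rw [← P.xy b c, ← P.xy a c, hb']
      conv_lhs => rw [← hy c]
      exact hnI _ _
    rw [← hb', h5]
  -- the complement
  refine ext_hyp P (fun a => hx a) (fun a => hy a) (fun v hv1 hv2 => ?_)
  change n v = v
  have h4 : P.tt v = v := P.tt_w hv1 hv2
  obtain ⟨a, ha⟩ := h3 v hv2
  have h5 : n v - v = P.y a := by
    have h6 := congrArg P.tt ha
    rw [map_sub, P.tt_x, h4] at h6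
    have h7 : P.tt ((P.tt⁻¹ * n * P.tt) v) = n v := by
      change P.tt (P.tt⁻¹ (n (P.tt v))) = n v
      rw [hinv, h4]
    rwa [h7] at h6
  have h6 : P.py (n v - v) = 0 := by
    rw [map_sub, P.py_of_fix hnI hx, sub_self]
  rw [h5, P.py_y] at h6
  rw [h6, map_zero] at h5
  exact sub_eq_zero.mp h5

end ne

variable {k : Type u} [Field k] [CharZero k] {K E : Type} [Field K] [Finite K] [AddCommGroup E]
  [Module K E] [FiniteDimensional K E] [Finite (E ≃ₗ[K] E)] {Φ : HForm K E} {ι : Type} [Fintype ι]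
  [DecidableEq ι] [Nonempty ι] [Finite ((ι → K) ≃ₗ[K] (ι → K))] {m : ℕ}
  (F : Frame Φ ι m) {ε : MonoidAlgebra k ((ι → K) ≃ₗ[K] (ι → K))}

/-- **`X i` is invertible in the corner.** -/
theorem X_inv_all (hT : Φ.Tr)
    (hmax : ∀ S : Submodule K E, S ≤ WF F 0 → (∀ x ∈ S, ∀ y ∈ S, Φ.B x y = 0) →
      finrank K S ≠ Fintype.card ι)
    (hε : ε * ε = ε) (hne : ε ≠ 0) (hp : ∀ z, ∃ c : k, ε * z * ε = c • ε)
    (hc : ∀ A1 : Submodule K (ι → K), A1 ≠ ⊥ → A1 ≠ ⊤ → ε * av k (Rad A1) = 0)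
    {X : ℕ → MonoidAlgebra k (E ≃ₗ[K] E)} {c : k}
    (hXm : ∀ i < m, X i ∈ SubAlg k (F.H (i + 1)))
    (hXc : ∀ i < m, ∀ x ∈ SubAlg k (F.H i), X i * x = x * X i)
    (hEX : ∀ i < m, F.EE ε i * X i = X i) (hXE : ∀ i < m, X i * F.EE ε i = X i)
    (hX : ∀ i (hi : i < m), ∀ h, ∃ c : k, F.EE ε i *
      MonoidAlgebra.single ((F.hyp i hi).tt * (F.hyp i hi).gl h) 1 * F.EE ε i = c • X i)
    (hTXT : ∀ i, i + 1 < m → F.TT ε i * X i * F.TT ε i = c • (X (i + 1) * F.EE ε i))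
    (hw : ∀ i (hi : i < m), ∃ (w : MonoidAlgebra k (E ≃ₗ[K] E)) (κ : k), κ ≠ 0 ∧
      w * X i = κ • (F.EE ε i * av k (F.Um i hi) * F.EE ε i)) :
    ∀ i < m, ∃ y, y * X i = F.EE ε i := by
  classical
  letI : Fintype ((ι → K) ≃ₗ[K] (ι → K)) := Fintype.ofFinite _
  have hp' : ∀ h, ∃ c : k, ε * MonoidAlgebra.single h 1 * ε = c • ε := fun h => hp _
  choose φ hφ using hp
  obtain ⟨hE, hcc, hw'⟩ := Eps.mk' hε hne hφ hc
  haveI : Finite ((ι → K) →ₗ[K] (ι → K)) :=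
    Finite.of_injective (fun f : (ι → K) →ₗ[K] (ι → K) => (f : (ι → K) → (ι → K)))
      DFunLike.coe_injective
  have hN : (Nat.card ((ι → K) →ₗ[K] (ι → K)) : k) ≠ 0 := by
    have : Nat.card ((ι → K) →ₗ[K] (ι → K)) ≠ 0 := Nat.card_pos.ne'
    exact_mod_cast this
  have hXc' : ∀ i < m, ∀ g ∈ F.H i, X i * o k g = o k g * X i :=
    fun i hi g hg => hXc i hi _ (single_mem_SubAlg hg 1)
  have hXc2 : ∀ i < m, ∀ g ∈ F.H i,
      X i * MonoidAlgebra.single g 1 = MonoidAlgebra.single g 1 * X i :=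
    fun i hi g hg => hXc i hi _ (single_mem_SubAlg hg 1)
  have hEc' : ∀ i < m, ∀ g ∈ F.H i, F.EE ε i * o k g = o k g * F.EE ε i :=
    fun i hi g hg => EE_comm F hi _ (single_mem_SubAlg hg 1)
  intro i
  induction i with
  | zero =>
    intro h0
    obtain ⟨w, κ, hκ, hwκ⟩ := hw 0 h0
    refine X_inv_zero (G' := F.H 0) (V := F.Um 0 h0) hκ hwκ (EE_idem F hε h0) (hEX 0 h0)
      (hXE 0 h0) (hXc' 0 h0) (fun n hn hn1 => ?_)
    rcases mack0 F hT hε hp' hc h0 hmax (Um_le F h0 hn) with ⟨h, -⟩ | ⟨-, h | ⟨h, g', hg', h1⟩⟩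
    · exact absurd h (Um_ne F h0 hn hn1)
    · exact Or.inl h
    · right
      obtain ⟨c', hc'⟩ := hX 0 h0 h
      refine ⟨c', g', hg', ?_⟩
      change F.EE ε 0 * MonoidAlgebra.single n 1 * F.EE ε 0 =
        c' • (X 0 * MonoidAlgebra.single g' 1)
      rw [h1, hc', smul_mul_assoc]
  | succ i ih =>
    intro hi
    have h0 : i < m := Nat.lt_of_succ_lt hi
    obtain ⟨w, κ, hκ, hwκ⟩ := hw (i + 1) hi
    obtain ⟨r1, r2, r3, r4, r5, r6⟩ := TT_rel F hE hi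
    refine X_inv_succ (G' := F.H (i + 1)) (V := F.Um (i + 1) hi) (E0 := F.EE ε i) (X' := X i)
      (T := F.TT ε i) hκ (inv_ne_zero hN) hwκ (EE_idem F hε hi) (hEX _ hi) (hXE _ hi)
      (hXc' _ hi) (hEc' _ hi) (EE_mem F h0) (hXm i h0) (EE_idem F hε h0)
      (by rw [mul_assoc, r4, r2]) (by rw [← mul_assoc, r3, r5]) r6 (hTXT i hi) (hEX i h0)
      (ih h0) (fun n hn hn1 => ?_)
    rcases mackS F hT hε hp' hc hi (Um_le F hi hn) with
      ⟨h, -⟩ | ⟨-, h | ⟨h, g', hg', h1⟩ | ⟨g₁, hg₁, g₂, hg₂, h1⟩⟩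
    · exact absurd h (Um_ne F hi hn hn1)
    · exact Or.inl h
    · right; left
      obtain ⟨c', hc'⟩ := hX (i + 1) hi h
      refine ⟨c', g', hg', ?_⟩
      change F.EE ε (i + 1) * MonoidAlgebra.single n 1 * F.EE ε (i + 1) =
        c' • (X (i + 1) * MonoidAlgebra.single g' 1)
      rw [h1, hc', smul_mul_assoc]
    · right; right
      exact ⟨g₁, hg₁, g₂, hg₂, h1⟩

end Vale.Agent.P180.H6.TowF
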